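import Crest.Agent.X212.Sf30.P2Sum
import Crest.Agent.X212.Sf30.P2Pk
import Crest.Agent.X212.Hp13.Thk
import Crest.Agent.X212.Sf30.P2Rev
import Crest.Agent.X212.Mcg32.Extd
import Crest.Agent.X212.Hp13.NegM

-- ▼ part X212/Sf30/P2Mv
section

/-!
# X212 / Sf30 (helper30): P2, sites and moves
-/

set_option autoImplicit false
set_option linter.unusedSectionVars false

open Finset Classical

noncomputable section

namespace Crest.Agent.X212.Pt30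

open Crest.Agent.X212.Hp13 Alg36 Cut21 Ind26
open Sf30 hiding Inn
open Sup43 (Inn inn_sub inn_up good_inn)
open Kh11 (WS clo_cmp sctr_min sctr_max)
open Am43 (Fl)

section
variable {P : Type} [PartialOrder P] [Fintype P] {A M E K : Set P} {e e' m : P → P → ℤ}
  {F : Set (Ch P)}

theorem not_pat (h : ep A e F = 0) {c : Ch P} (hc : c ∈ F) : ¬ Pat A e c := fun k =>
  notMem_empty c (card_eq_zero.1 h ▸ mem_filter.2 ⟨mem_univ _, hc, k⟩)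

theorem rim_wit (hN : Nice (Inn A)) (h : Z1 (Inn A) e) (hv : Vt A e) (hF : IsCmp (Mx (Inn A) e) F)
    {c : Ch P} (hc : c ∈ F) {n : P} (hn : n ∈ c.1) (h1 : n ∉ Inn A) (h2 : 0 < e n c.top) :
    ∃ q ∈ Qe (Inn A) e, q ∉ F ∧ (∃ c' ∈ F, q ≤ c') ∧ n ≤ q.top ∧ q.top ≤ c.top ∧ q.top ∉ Inn A ∧
      (q.top ∈ A → n ∈ A) := by
  have t := (hF.sub hc).1
  have l := Ch.le_top hn
  obtain ⟨n', a1, a2, a3, a4, a5, -⟩ := hv.vert n _ h1 (dp_hi t l le_rfl) h2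
  refine ⟨Ch.pr n n' a1, ⟨(dom_pr a1).2 (dp_hi t a1 a2), by simpa using a3⟩,
    fun k => a4 (by simpa using (hF.sub k).1), ⟨tp _ c.top (by simpa using a2), ?_, le_tp _ _ _⟩,
    by simpa using a1, by simpa using a2, by simpa using a4, by simpa using a5⟩
  exact h.cmp_over inn_up hN hF (q := Ch.pr n c.top l) (by simpa using h2) hc
    (Cut21.pr_le hn c.top_mem) (Cut21.pr_le (by simp) (by simp)) (by simpa using t)

/-- a disc without crossing has its boundary in `R₊` or in `R₋` -/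
theorem side_cases (hA : A.OrdConnected) (hM : Mf 3 (Inn A)) (hN : Nice (Inn A))
    (h : Z1 (Inn A) e) (hv : Vt A e) (hF : IsCmp (Mx (Inn A) e) F) (he : eu F = 1)
    (h0 : ep A e F = 0) : (∀ c ∈ F, c.bot ∈ A) ∨ ∀ c ∈ F, ∀ b ∈ c.1, b ∉ Fr A := by
  by_contra k
  simp only [not_or, not_forall, not_not] at k
  obtain ⟨⟨c, hc, n⟩, d, hd, b, hb, f⟩ := k
  have up : IsUpperSet F := (clo_cmp hF).upper (mx_upper h inn_up subset_rfl)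
  have key : ∀ q ∈ Qe (Inn A) e, q ∉ F → (∃ c' ∈ F, q ≤ c') → q.top ∉ Fr A →
      ∀ q' ∈ Qe (Inn A) e, q' ∉ F → (∃ c' ∈ F, q' ≤ c') → q'.top ∉ Fr A :=
    fun q a1 a2 ⟨c, a3, a4⟩ a5 q' b1 b2 ⟨c', b3, b4⟩ => by
      refine h.rim hM hF.sub up hF.conn he.ge (fun q _ => q.top ∈ Fr A) (fun _ _ _ _ _ _ _ _ => rfl)
        (fun q a1 a2 c a3 q' a4 a5 a6 => propext ?_) a1 a2 a3 a4 b1 b2 b3 b4 ▸ a5
      have t := (hF.sub a3).1
      have n : q.top ∉ Inn A := fun m => a2 (hF.clopen a3 ⟨m, a1.2⟩ (Or.inr a6))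
      refine ⟨fun m => by_contra fun m' => not_pat h0 a3 ⟨_, a6 (a5 q'.bot_mem), _,
        a6 (a5 q'.top_mem), _, a6 q.top_mem, q'.bot_le_top,
        fun o => m' (fr_dn m o (Ch.top_mono a5)), m, a4.2⟩,
        fun m => fr_of (hA.out m.1 t.1 ⟨Ch.top_mono a5, Ch.top_mono a6⟩) n⟩
  obtain ⟨q, a1, a2, a3, -, -, -, a4⟩ :=
    rim_wit hN h hv hF hc c.bot_mem (fun m => n m.1) (hF.sub hc).2
  have t := hF.sub hd
  by_cases m : 0 < e d.bot b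
  · have l := Ch.bot_le hb
    exact key q a1 a2 a3 (fun o => n (a4 o.1)) (Ch.pr _ _ l)
      ⟨(dom_pr l).2 (dp_hi t.1 l (Ch.le_top hb)), by simpa using m⟩
      (fun o => (hF.sub o).1.2 (by simpa using f)) ⟨d, hd, Cut21.pr_le d.bot_mem hb⟩
      (by simpa using f)
  · have := h.add t.1 (Ch.bot_le hb) (Ch.le_top hb) le_rfl
    have := t.2
    obtain ⟨q', b1, b2, b3, b4, b5, b6, -⟩ := rim_wit hN h hv hF hd hb (fun o => o.2 f) (by omega)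
    exact key q a1 a2 a3 (fun o => n (a4 o.1)) q' b1 b2 b3 (fr_of (hA.out f.1 t.1.1 ⟨b4, b5⟩) b6)

/-! ### a site in the manifold itself -/

namespace Site

variable (h : Site A e E)
include h

theorem mvs : Mvs (Inn A) E e := ⟨h.flat, fun x hx y hp => h.lo x hx y hp.1⟩

theorem wit : ∃ x ∈ E, ∃ y, ∃ l : y ≤ x, y ∉ E ∧ ∃ i ∈ Inn A, ∃ k : (Ch.pr y x l).top ≤ i,
    tp _ i k ∈ NXs (Inn A) E :=
  let ⟨x, hx, y, l, n⟩ := h.ne
  let ⟨_, i, hi, k⟩ := h.sub hx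
  ⟨x, hx, y, l, n, i, hi, by simpa using k, by simpa using hi, ⟨x, by simp, hx⟩, by simpa using n⟩

theorem nx_ne : (NXs (Inn A) E).Nonempty := let ⟨_, _, _, _, _, _, _, _, k⟩ := h.wit; ⟨_, k⟩

theorem ny_eq : NYs (Inn A) E = Sr (Inn A) E :=
  Set.ext fun _ => ⟨fun k => ⟨k.1, k.2.1⟩, fun k => ⟨k.1, k.2, fun l => (h.sub l).1 k.1⟩⟩

theorem ny (C : Set (Ch P)) (hC : IsCmp (NYs (Inn A) E) C) : Hp13.eu C = 1 := by
  rw [h.ny_eq] at hC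
  obtain ⟨c, hc, rfl⟩ := hC
  rw [← h.eu]
  exact congrArg _ (Set.ext fun d => ⟨fun k => k.1, fun k => ⟨k, h.conn c hc d k⟩⟩)

theorem off (x : P) (hx : x ∈ E) (n : x ∉ A) (b : P) (hb : b ∈ Fr A) : ¬ x ≤ b :=
  h.side.elim (fun k => absurd (k x hx x le_rfl) n) fun k => k x hx x le_rfl b hb

theorem eu_nx (hM : Mf 3 (Inn A)) (he : Z1 (Inn A) e) : Hp13.eu (NXs (Inn A) E) ≤ 0 := by
  have nx : ∀ {c}, c ∈ NXs (Inn A) E ↔ c ∈ Mx (Inn A) e ∧ Mt E c := Am43.nx_iff he h.mvs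
  obtain ⟨x, hx, y, l, n, i, hi, k, w⟩ := h.wit
  have k' : x ≤ i := by simpa using k
  have e1 := h.lo x hx y l n
  have := he.eu_add_le hM (fun _ a => (nx.1 a).1)
    (fun _ _ a b => nx.2 ⟨mx_upper he inn_up subset_rfl a (nx.1 b).1, b.2.1.mono a⟩) h.curve
    (fun q _ => Mt E q) (fun _ _ _ _ _ _ _ _ => rfl)
    (fun q a1 a2 c a3 q' a4 a5 a6 => propext ⟨fun ⟨t, t1, t2⟩ => ?_, fun m => m.mono a5⟩)
    {True, False} fun j hj => ?_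
  · rw [card_pair (by simp)] at this
    omega
  · have n : q.top ∉ Inn A := fun m => a2 (nx.2 ⟨⟨m, a1.2⟩, t, t1, t2⟩)
    have o : q'.top ∈ Om (Inn A) := ⟨fun m => n (inn_up (Ch.top_mono a5) m), _, a3.1,
      Ch.top_mono (a5.trans a6)⟩
    refine ⟨_, q'.top_mem, (q.total t1 (a5 q'.top_mem)).elim (h.up t t2 _ o) fun m =>
      by_contra fun m' => ?_⟩
    have := h.lo t t2 _ m m'
    have := he.top_top a1.1 a5 a4.2
    have := he.add a3.1 m (Ch.le_top t1) (Ch.top_mono a6)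
    have := he.nn a3.1 (Ch.le_top t1) (Ch.top_mono a6)
    omega
  · rcases mem_insert.1 hj with rfl | hj
    · exact ⟨Ch.pr y x l, ⟨(dom_pr l).2 (dp_hi hi l k'), by simp [e1]⟩,
        fun m => (h.sub hx).1 (by simpa using m.1), _, w, le_tp _ _ _, eq_true ⟨x, by simp, hx⟩⟩
    · have m : ¬ Mt E (Ch.pr y i (l.trans k')) := fun ⟨t, t1, t2⟩ =>
        (Cut21.mem_pr.1 t1).elim (fun o => n (o ▸ t2)) fun o => (h.sub t2).1 (o ▸ hi)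
      exact ⟨Ch.pr y i (l.trans k'), ⟨dom_top (by simpa using hi), by simpa using (nx.1 w).1.2⟩,
        fun o => m o.2.1, _, w, Cut21.pr_le (by simp) (by simp), mem_singleton.1 hj ▸ eq_false m⟩

end Site

/-- the trace on `K` after a move -/
theorem clo_trace (h' : Z1 M e') (h : Z1 M e) (mv : Mvs M E e) (hK : K ⊆ M)
    (ag : ∀ c ∈ Mx M e', ∀ x ∈ c.1, ∀ y ∈ c.1, x ≤ y → e' x y = (e - cb (ind E)) x y)
    (up : ∀ x ∈ E, ∀ k ∈ K, x ≤ k → k ∈ E) :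
    Kh11.Clo (Mx K e) (Mx K e') ∧ ∀ c ∈ Mx K e', c.top ∉ E := by
  have k : ∀ c ∈ Mx K e', c ∈ Mx K e ∧ c.top ∉ E := fun c hc => by
    have a := ag c (mx_mono hK hc) _ c.bot_mem _ c.top_mem c.bot_le_top
    have b := hc.2
    have d := h.le1 (hK hc.1) c.bot_le_top le_rfl
    simp only [Pi.sub_apply, cb] at a
    by_cases l : c.bot ∈ E
    · rw [mv.flat _ l _ (dom_top (hK hc.1)).bt, ind_of_mem l,
        ind_of_mem (up _ l _ hc.1 c.bot_le_top)] at a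
      omega
    rw [ind_of_not l] at a
    have n : c.top ∉ E := fun o => by rw [ind_of_mem o] at a; omega
    rw [ind_of_not n] at a
    exact ⟨⟨hc.1, by omega⟩, n⟩
  refine ⟨⟨fun c hc => (k c hc).1, fun c hc d hd l => ⟨hd.1, l.elim
    (fun l => h'.up (dom_top (hK hd.1)) l hc.2) fun l => ?_⟩⟩, fun c hc => (k c hc).2⟩
  have a := ag c (mx_mono hK hc) _ (l d.bot_mem) _ (l d.top_mem) d.bot_le_top
  have b := hd.2
  simp only [Pi.sub_apply, cb] at a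
  rw [ind_of_not fun o => (k c hc).2 (up _ o _ hc.1 (Ch.top_mono l))] at a
  have : 0 ≤ ind E d.bot := by unfold ind; split_ifs <;> simp
  omega

end

/-- SITE -/
theorem site (hp : NegPStmt) (hm : NegMStmt) (hi : InnStmt) {s : St} {e : s.P → s.P → ℤ}
    {F : Set (Ch s.P)} (hs : Stt s) (h : Z1 (Inn s.A) e) (hF : IsCmp (Mx (Inn s.A) e) F)
    (he : eu F = 1) (ht : Tc (Inn s.A) e F) (h0 : ep s.A e F = 0) :
    (∃ E, Site s.sd.A (rev e) E) ∨ ∃ E, Site s.sd.sd.A (rev (rev e)) E := by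
  have s1 := stt_sd hs
  have g := good_inn s1.toGood s1.thick
  have e1 : Inn s.sd.A = Ch.top ⁻¹' Inn s.A := inn_sd
  have z : Z1 (Inn s.sd.A) (rev e) := e1 ▸ h.rev
  have v : Vt s.sd.A (rev e) := vt_rev (good_inn hs.toGood hs.thick).nice h.coc
  have c : IsCmp (Mx (Inn s.sd.A) (rev e)) (rv (Inn s.A) e F) := e1 ▸ rv_cmp h subset_rfl hF
  have u := (rv_eu h subset_rfl hF).trans he
  have t : Tc (Inn s.sd.A) (rev e) (rv (Inn s.A) e F) := e1 ▸ rv_tc h subset_rfl hF ht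
  obtain ⟨W, k⟩ := (side_cases s1.conv g.mf g.nice z v c u
    (Nat.le_zero.1 (h0 ▸ ep_rv hs.conv hs.mf h F))).elim (hp _ _ _ s1 z v c u t)
    (hm _ _ _ s1 z v c u t)
  exact hi _ _ W s1 z v k

/-- MOVE with the marking and the index -/
theorem move (ha : AmStmt) {s : St} {e m : s.P → s.P → ℤ} {E U : Set s.P} {n : ℕ} (hs : Stt s)
    (ds : DSys s.A e) (hm : Coc (Inn s.A) m) (fl : Fl (Inn s.A) e m) (hU : U ⊆ Inn s.A)
    (ex : ExOn U m) (hx : Ix s.A e m n) (mv : Mvs (Inn s.A) E e) (cn : Conn (NXs (Inn s.A) E))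
    (ne : (NXs (Inn s.A) E).Nonempty) (ny : ∀ C, IsCmp (NYs (Inn s.A) E) C → eu C = 1)
    (off : ∀ x ∈ E, x ∉ s.A → ∀ b ∈ Fr s.A, ¬ x ≤ b) :
    ∃ e' m' D, IsCmp (Mx (Inn s.A) e) D ∧ DSys s.A e' ∧ Coc (Inn s.A) m' ∧ Fl (Inn s.A) e' m' ∧
      ExOn U m' ∧ Ix s.A e' m' n ∧
      (∀ c ∈ Mx (Inn s.A) e', ∀ x ∈ c.1, ∀ y ∈ c.1, x ≤ y → e' x y = (e - cb (ind E)) x y) ∧
      (eu (NXs (Inn s.A) E) ≤ 0 → Conn (NYs (Inn s.A) E) →
        Mx (Inn s.A) e' = Mx (Inn s.A) e \ D) := by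
  have z := ds.toZ1
  have nx : ∀ {c}, c ∈ NXs (Inn s.A) E ↔ c ∈ Mx (Inn s.A) e ∧ Mt E c := Am43.nx_iff z mv
  obtain ⟨D, cD, sub⟩ := ex_cmp (f := id) cn ne (fun _ k => (nx.1 k).1) fun _ _ _ _ l => l
  obtain ⟨e', d', sp, ⟨g, hg⟩, le, ag, kp, fin⟩ : ∃ e' : s.P → s.P → ℤ, Dsc (Inn s.A) e' ∧
      (Spn1 (Inn s.A) e → Spn1 (Inn s.A) e') ∧ (∃ h, EqD (Inn s.A) (e - e') (cb h)) ∧
      (∀ x y, Dp (Inn s.A) x y → e' x y ≤ (e - cb (ind E)) x y) ∧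
      (∀ c ∈ Mx (Inn s.A) e', ∀ x ∈ c.1, ∀ y ∈ c.1, x ≤ y → e' x y = (e - cb (ind E)) x y) ∧
      Mx (Inn s.A) e \ D ⊆ Mx (Inn s.A) e' ∧ (eu (NXs (Inn s.A) E) ≤ 0 → Conn (NYs (Inn s.A) E) →
        Mx (Inn s.A) e' = Mx (Inn s.A) e \ D) := ha (s.at (Inn s.A)) e E D
    (good_inn hs.toGood hs.thick) inn_up ds.toDsc mv cn ne cD sub ny
  have z' : Z1 (Inn s.A) e' := d'.toZ1
  obtain ⟨k, hk⟩ := Am43.const_jump z fl hm cD.sub cD.conn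
  have keep : ∀ c ∈ Mx (Inn s.A) e \ D, ∀ x ∈ c.1, ∀ y ∈ c.1, x ≤ y → e' x y = e x y :=
    fun c hc x a y b l => by
      have n : ¬ Mt E c := fun o => hc.2 (sub c (nx.2 ⟨hc.1, o⟩))
      exact (ag c (kp hc) x a y b l).trans (Am43.lw_ch n a b)
  have pt : ∀ c ∈ Mx (Inn s.A) e', Pat s.A e' c → c ∈ Mx (Inn s.A) e ∧ Pat s.A e c :=
    fun c hc ⟨x, a, x', a', b, a'', l, n, f, p⟩ => by
      have t : c.top ∈ Inn s.A := hc.1
      have n' := not_dn hs.conv t.1 (Ch.le_top a') n l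
      have := le x x' (dp_hi t l (Ch.le_top a'))
      simp only [Pi.sub_apply, cb] at this
      rw [ind_of_not fun o => off x o n' b f ((c.total a a'').resolve_right fun r =>
        n' (hs.conv.out f.1 t.1 ⟨r, Ch.le_top a⟩))] at this
      have : 0 ≤ ind E x' := by unfold ind; split_ifs <;> simp
      have q : 0 < e x x' := by omega
      exact ⟨⟨t, z.pos (dom_top t) a a' l q⟩, x, a, x', a', b, a'', l, n, f, q⟩
  have clo : Kh11.Clo (Mx (Inn s.A) e') (Mx (Inn s.A) e \ D) := ⟨kp, fun c hc d hd l => by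
    have o : d ∈ Mx (Inn s.A) e := ⟨hd.1, l.elim (fun l => z.up (dom_top hd.1) l hc.1.2) fun l =>
      keep c hc _ (l d.bot_mem) _ (l d.top_mem) d.bot_le_top ▸ hd.2⟩
    exact ⟨o, fun r => hc.2 (cD.clopen r hc.1 l.symm)⟩⟩
  refine ⟨e', m - k • (e - e'), D, cD, ⟨d', sp ds.spn⟩, hm.sub ((z.coc.sub z'.coc).zsmul k),
    fun x y hp o => ?_, ?_, hx.of id (fun _ _ _ _ _ _ l => l) fun C' hC => ?_, ag, fin⟩
  · simp only [Pi.sub_apply, Pi.smul_apply, smul_eq_mul, o, sub_zero]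
    by_cases r : e x y = 0
    · rw [fl x y hp r, r]; simp
    obtain ⟨c, t, a, b⟩ := Am43.dp_ch inn_up hp
    have p : 0 < e x y := (z.mono x y hp).lt_of_ne' r
    have hc : c ∈ D := by_contra fun n =>
      r ((keep c ⟨⟨t, z.pos (dom_top t) a b hp.1 p⟩, n⟩ x a y b hp.1).symm.trans o)
    rw [hk c hc x a y b hp.1 p, le_antisymm (z.le x y hp) p]; simp
  · obtain ⟨g', hg'⟩ := ex
    refine ⟨fun x => g' x - k * g x, fun x a y b l => ?_⟩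
    have := hg x y (dp_hi (hU b) l le_rfl)
    simp only [Pi.sub_apply, Pi.smul_apply, smul_eq_mul, cb] at this ⊢
    rw [hg' x a y b l, this]; ring
  obtain ⟨c, hc⟩ := hC.ne
  by_cases o : c ∈ Mx (Inn s.A) e \ D
  · have sb := clo_sub clo hC hc o
    obtain ⟨C, a, b⟩ := ex_cmp (f := id) hC.conn hC.ne (fun _ r => (sb r).1) fun _ _ _ _ l => l
    refine ⟨C, a, fun u => um_of z hm fl a (b c hc) ?_,
      fun d hd p => ⟨b d hd, (pt d (hC.sub hd) p).2⟩⟩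
    simpa [keep c o _ c.bot_mem _ c.top_mem c.bot_le_top] using u c hc
  have sb : ∀ d ∈ C', d ∈ Mx (Inn s.A) e → d ∈ D := fun d hd r =>
    by_contra fun n => o (clo_sub clo hC hd ⟨r, n⟩ hc)
  refine ⟨D, cD, fun u d hd => ?_, fun d hd p => ⟨sb d hd (pt d (hC.sub hd) p).1,
    (pt d (hC.sub hd) p).2⟩⟩
  rw [hk d hd _ d.bot_mem _ d.top_mem d.bot_le_top (cD.sub hd).2]
  have t := hC.sub hc
  have u := u c hc
  have dp := (dom_top t.1).bt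
  simp only [Pi.sub_apply, Pi.smul_apply, smul_eq_mul, le_antisymm (z'.le _ _ dp) t.2] at u
  by_cases r : e c.bot c.top = 0
  · rw [fl _ _ dp r, r] at u; simpa using u
  · have p := (z.mono _ _ dp).lt_of_ne' r
    rw [hk c (sb c hc ⟨t.1, p⟩) _ c.bot_mem _ c.top_mem c.bot_le_top p,
      le_antisymm (z.le _ _ dp) p] at u
    simpa using u

end Crest.Agent.X212.Pt30
end
end

-- ▼ part X212/Sf30/P2Main
section

/-!
# X212 / Sf30 (helper30): P2 from its leaves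
-/

set_option autoImplicit false
set_option linter.unusedSectionVars false

open Finset Classical

noncomputable section

namespace Crest.Agent.X212.Pt30

open Crest.Agent.X212.Hp13 Alg36 Cut21 Ind26
open Sf30 hiding Inn
open Sup43 (Inn inn_sub inn_up good_inn)
open Kh11 (WS clo_cmp sctr_min sctr_max)
open Am43 (Fl)

theorem ixp_erase {P : Type} [PartialOrder P] [Fintype P] {A : Set P} {e : P → P → ℤ}
    {p : Set (Ch P) → Prop} {D : Set (Ch P)} (hD : IsCmp (Mx (Inn A) e) D) (h : ¬ p D) :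
    ep A e D - 2 + ixp A e p ≤ ix A e := by
  rw [ix, ← add_sum_erase _ _ (mem_cs.2 hD)]
  exact Nat.add_le_add_left (sum_le_sum_of_subset fun C r =>
    mem_erase.2 ⟨fun o : C = D => h (o ▸ (mem_filter.1 r).2), (mem_filter.1 r).1⟩) _

/-- DISCARD a marked piece, or all marked pieces are products -/
theorem discard (hd : DiscStmt) {s : St} {e m : s.P → s.P → ℤ} {g : s.P → ℤ} {n : ℕ} (st : Stt s)
    (ds : DSys s.A e) (cm : Coc (Inn s.A) m) (fm : Fl (Inn s.A) e m) (hg : EqD (Inn s.A) m (cb g))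
    (hx : Ix s.A e m n) : HBo s n := by
  have gd := good_inn st.toGood st.thick
  have sp := ds.spn
  have k1 := hx.all
  have k2 := hx.um
  by_cases k : ∃ F, IsCmp (Mx (Inn s.A) e) F ∧ ¬ Um m F ∧ 2 < ep s.A e F
  · obtain ⟨F, hF, u, lt⟩ := k
    obtain ⟨e', z, mx, sp', ag⟩ : ∃ e' : s.P → s.P → ℤ, Z1 (Inn s.A) e' ∧
        Mx (Inn s.A) e' = Mx (Inn s.A) e \ F ∧ (Spn1 (Inn s.A) e → Spn1 (Inn s.A) e') ∧
        ∀ c ∈ Mx (Inn s.A) e', ∀ x ∈ c.1, ∀ y ∈ c.1, x ≤ y → e' x y = e x y :=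
      hd (s.at (Inn s.A)) e F g gd inn_up ds.toZ1 hF
        (fun x y r o => (sub_eq_zero.1 ((hg x y r).symm.trans (fm x y r o))).symm) fun c r o =>
          u (um_of ds.toZ1 cm fm hF r ((hg _ _ (dom_top (hF.sub r).1).bt).trans (sub_eq_zero.2 o.symm)))
    have cl : ∀ C, IsCmp (Mx (Inn s.A) e') C → IsCmp (Mx (Inn s.A) e) C := fun C r =>
      clo_isCmp (clo_diff (clo_cmp hF)) (mx ▸ r)
    refine ⟨s, id, e', Desc.refl, ⟨⟨z, fun C r => ⟨(ds.disc C (cl C r)).1, ?_⟩⟩, sp' sp⟩, ?_⟩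
    · obtain ⟨c, b, x, hx, y, hy, l, o, t⟩ := (ds.disc C (cl C r)).2
      exact ⟨c, b, x, hx, y, hy, l, o, (ag c (r.sub b) x hx y hy l).symm ▸ t⟩
    have := ixp_le (A := s.A) (e := e) (A' := s.A) (e' := e') (p := (· ≠ F)) (p' := fun _ => True)
      id (fun _ _ _ _ _ _ l => l) fun C r _ => ⟨C, cl C r,
        fun o => let ⟨c, b⟩ := r.ne; (mx ▸ r.sub b :).2 (o ▸ b),
        fun c b ⟨x, hx, y, hy, w, hw, l, o, f, t⟩ =>
          ⟨b, x, hx, y, hy, w, hw, l, o, f, ag c (r.sub b) x hx y hy l ▸ t⟩⟩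
    have := ixp_erase (p := (· ≠ F)) hF fun o => o rfl
    rw [ix_eq] at this ⊢
    omega
  · refine ⟨s, id, e, Desc.refl, ds, le_of_eq_of_le (sum_filter_of_ne fun F r o => ?_).symm k2⟩
    exact by_contra fun u => k ⟨F, mem_cs.1 r, u, by omega⟩

/-- a cut, a marked disc system, the marked part does not meet the cut manifold essentially -/
structure Sg (n : ℕ) where
  s : St
  s' : St
  z : s.P → s.P → ℤ
  π : s'.P → s.P
  e : s.P → s.P → ℤ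
  m : s.P → s.P → ℤ
  pk : Pk s s' z π
  ds : DSys s.A e
  coc : Coc (Inn s.A) m
  fl : Fl (Inn s.A) e m
  ex : ExOn (Uz s.A z) m
  ix : Ix s.A e m n

namespace Sg

variable {n : ℕ} (a : Sg n)

/-- the curves of intersection -/
def mu : ℕ := (cs (Mx (Inn a.s.A \ Uz a.s.A a.z) a.e)).card

/-- the discs -/
def nu : ℕ := (cs (Mx (Inn a.s.A) a.e)).card

/-- one level up -/
def rv : Sg n where
  s := a.s.sd
  s' := a.s'.sd
  z := pb Ch.top a.z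
  π := a.pk.im
  e := rev a.e
  m := rev a.m
  pk := a.pk.sd
  ds := ⟨inn_sd (A := a.s.A) ▸ a.ds.toDsc.rev, inn_sd (A := a.s.A) ▸ a.ds.spn.rev inn_up a.pk.nice⟩
  coc := inn_sd (A := a.s.A) ▸ a.coc.rev
  fl := inn_sd (A := a.s.A) ▸ fl_rev a.fl
  ex := uz_sd (A := a.s.A) ▸ exOn_rev a.coc uz_sub a.ex
  ix := a.ix.rev a.pk.st.conv a.pk.st.mf a.ds.toZ1

theorem rv_mu : a.rv.mu = a.mu := by
  have : Inn a.s.sd.A \ Uz a.s.sd.A (pb Ch.top a.z) = Ch.top ⁻¹' (Inn a.s.A \ Uz a.s.A a.z) :=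
    Set.ext fun _ => and_congr mem_inn_sd (not_congr mem_uz_sd)
  exact (congrArg (fun X => (cs (Mx X (rev a.e))).card) this).trans
    (card_ws (ws_rev a.ds.toZ1 Set.sdiff_subset))

theorem rv_nu : a.rv.nu = a.nu :=
  (congrArg (fun X => (cs (Mx X (rev a.e))).card) (inn_sd (A := a.s.A))).trans
    (card_ws (ws_rev a.ds.toZ1 subset_rfl))

theorem rv_pb : pb a.rv.π a.rv.e = rev (pb a.π a.e) :=
  funext fun _ => funext fun _ => congrArg₂ a.e (a.pk.bot_im _) (a.pk.bot_im _)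

/-- `b` is smaller -/
def Lt (b a : Sg n) : Prop :=
  (∃ g, Desc a.s' b.s' g) ∧ (b.mu < a.mu ∨ b.mu ≤ a.mu ∧ b.nu < a.nu)

theorem Lt.rv {a b : Sg n} (h : Lt b a.rv) : Lt b a :=
  ⟨let ⟨_, d⟩ := h.1; ⟨_, (Desc.sd _).trans d⟩, a.rv_mu ▸ a.rv_nu ▸ h.2⟩

/-- a site in the manifold removes a disc -/
theorem drop (ha : AmStmt) {E : Set a.s.P} (h : Site a.s.A a.e E) : ∃ b, Lt b a := by
  obtain ⟨e', m', D, cD, ds, c, f, x, i, -, k⟩ := move ha a.pk.st a.ds a.coc a.fl uz_sub a.ex a.ix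
    h.mvs h.curve h.nx_ne h.ny h.off
  have k := k (h.eu_nx a.pk.mf a.ds.toZ1) (h.ny_eq ▸ h.conn)
  have l : ∀ {c}, c ∈ Mx (Inn a.s.A) e' ↔ c ∈ Mx (Inn a.s.A) a.e ∧ c ∉ D := by rw [k]; rfl
  obtain ⟨d, hd⟩ := cD.ne
  refine ⟨⟨a.s, a.s', a.z, a.π, e', m', a.pk, ds, c, f, x, i⟩, ⟨_, Desc.refl⟩, Or.inr
    ⟨card_clo ⟨fun c r => ⟨r.1, (l.1 ⟨r.1.1, r.2⟩).1.2⟩, fun c r d o t => ⟨o.1, (l.2 ⟨⟨o.1.1, o.2⟩,
      fun u => (l.1 ⟨r.1.1, r.2⟩).2 (cD.clopen u (l.1 ⟨r.1.1, r.2⟩).1 t.symm)⟩).2⟩⟩,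
    card_clo_lt (T := Mx (Inn a.s.A) e') (k ▸ clo_diff (clo_cmp cD)) (cD.sub hd)
      fun u => (l.1 u).2 hd⟩⟩

theorem up {E : Set a.rv.s'.P} (h : Site a.rv.s'.A (rev (pb a.π a.e)) E) (X : Ch a.s'.P)
    (hX : X ∈ E) (V : Ch a.s.P) (l : a.pk.im X ≤ V) : rev a.e (a.pk.im X) V = 0 := by
  obtain ⟨-, I, hI, k⟩ := h.sub hX
  have t : Ch.top I ∈ Inn a.s'.A := mem_inn_sd.1 hI
  have b : X.bot ≤ Ch.top I := X.bot_le_top.trans (Ch.top_mono k)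
  have l' : V.bot ≤ a.π X.bot := a.pk.bot_im X ▸ Ch.bot_anti l
  obtain ⟨q, q1, q2⟩ := a.pk.ex_dn t.1 (l'.trans (a.pk.mon b))
  have q3 := a.pk.le_dn t.1 q1 b (q2 ▸ l')
  have := h.flat X hX (bt X q q3) (dp_hi (a := tp (bt X q q3) (Ch.top I)
    (by simpa using Ch.top_mono k)) (mem_inn_sd.2 (by simpa using t)) (le_bt _ _ _) (le_tp _ _ _))
  simpa [rev, pb, q2, a.pk.bot_im] using this

variable (hp : NegPStmt) (hm : NegMStmt) (hi : InnStmt) (ha : AmStmt)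
include hp hm hi ha

/-- a disc without crossing is removed -/
theorem dropD {D : Set (Ch a.s.P)} (hD : IsCmp (Mx (Inn a.s.A) a.e) D) (h0 : ep a.s.A a.e D = 0) :
    ∃ b, Lt b a := by
  obtain ⟨E, h⟩ | ⟨E, h⟩ := site hp hm hi a.pk.st a.ds.toZ1 hD (a.ds.disc D hD).1
    (a.ds.disc D hD).2 h0
  · obtain ⟨b, k⟩ := a.rv.drop ha h
    exact ⟨b, k.rv⟩
  · obtain ⟨b, k⟩ := a.rv.rv.drop ha h
    exact ⟨b, k.rv.rv⟩

/-- a site in the cut manifold -/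
theorem step (ht : TransStmt) {E : Set a.rv.s'.P} (h : Site a.rv.s'.A (rev (pb a.π a.e)) E) :
    ∃ b, Lt b a := by
  suffices ∃ b, Lt b a.rv from let ⟨b, k⟩ := this; ⟨b, k.rv⟩
  obtain ⟨mv, cn, ne, ny, off, -, up, alt⟩ := ht _ _ _ _ _ E a.rv.pk a.rv.ds.toZ1 (a.rv_pb ▸ h)
    fun X hX V l => a.up h X hX V l.1
  generalize a.rv.π '' E = E at mv cn ne ny off up alt
  generalize a.rv = a at E mv cn ne ny off up alt
  rcases alt with ⟨c, hc, t⟩ | alt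
  · obtain ⟨e', m', D, -, ds, c', f, x, i, ag, -⟩ := move ha a.pk.st a.ds a.coc a.fl uz_sub a.ex
      a.ix mv cn ne ny off
    have k := clo_trace ds.toZ1 a.ds.toZ1 mv Set.sdiff_subset ag up
    exact ⟨⟨a.s, a.s', a.z, a.π, e', m', a.pk, ds, c', f, x, i⟩, ⟨_, Desc.refl⟩,
      Or.inl (card_clo_lt k.1 hc fun u => k.2 c u t)⟩
  · obtain ⟨D, cD, sub⟩ := ex_cmp (f := id) cn ne
      (fun _ k => ((Am43.nx_iff a.ds.toZ1 mv).1 k).1) fun _ _ _ _ l => l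
    exact a.dropD hp hm hi ha cD (alt D cD (a.ds.disc D cD).1 sub)

omit hp hm hi ha in
/-- no negative piece -/
theorem last (hd : DiscStmt) (hf : FinStmt) (hg : GoodStmt)
    (h : ∀ F, IsCmp (Mx (Inn a.s'.A) (pb a.π a.e)) F → eu F = 1 →
      Tc (Inn a.s'.A) (pb a.π a.e) F → ep a.s'.A (pb a.π a.e) F ≠ 0) : HBo a.s' n := by
  obtain ⟨ds, two, sm, tc⟩ := hf _ _ _ _ _ a.pk a.ds.toDsc h
  have sp := hg _ _ _ _ _ a.pk a.ds tc
  have key : ∀ (p : Set (Ch a.s.P) → Prop) (p' : Set (Ch a.s'.P) → Prop),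
      (∀ F D, IsCmp (Mx (Inn a.s'.A) (pb a.π a.e)) F → IsCmp (Mx (Inn a.s.A) a.e) D →
        (∀ c ∈ F, a.pk.im c ∈ D) → p' F → p D) → ixp a.s'.A (pb a.π a.e) p' ≤ ixp a.s.A a.e p :=
    fun p p' k => by
      refine rel_sum (fun D => (cs (Mx (Inn a.s'.A) (pb a.π a.e))).filter
        fun F => ∀ c ∈ F, a.pk.im c ∈ D) (fun F l => ?_) fun D l => ?_
      · have hF := mem_cs.1 (mem_filter.1 l).1
        obtain ⟨D, b, c⟩ := ex_cmp (B := Mx (Inn a.s.A) a.e) (f := a.pk.im) hF.conn hF.ne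
          (fun c r => mx_mono uz_sub (a.pk.mem_mx.1 (hF.sub r)).2)
          fun _ _ _ _ r => a.pk.cov.toLift.im_mono r
        exact ⟨D, mem_filter.2 ⟨mem_cs.2 b, k F D hF b c (mem_filter.1 l).2⟩,
          mem_filter.2 ⟨(mem_filter.1 l).1, c⟩⟩
      · have := sm D (mem_cs.1 (mem_filter.1 l).1)
        refine (Nat.cast_le (α := ℤ)).1 (le_of_eq_of_le ?_ (this.trans (by omega)))
        rw [Nat.cast_sum]
        exact sum_congr rfl fun F r => Nat.cast_sub (two F (mem_cs.1 (mem_filter.1 r).1))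
  have k1 := (key _ (fun _ => True) fun _ _ _ _ _ _ => trivial).trans a.ix.all
  have k2 := (key _ (Um (pb a.π a.m)) fun F D b c d u => by
    obtain ⟨x, hx⟩ := b.ne
    exact um_of a.ds.toZ1 a.coc a.fl c (d x hx)
      (by rw [a.pk.bot_im, a.pk.top_im]; exact u x hx)).trans a.ix.um
  have sb : Inn a.s'.A ⊆ a.π ⁻¹' Inn a.s.A := fun _ r => (a.pk.uz_of r).1
  have cm : Coc (Inn a.s'.A) (pb a.π a.m) := (a.coc.pb a.pk.mon).mono sb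
  have fm : Fl (Inn a.s'.A) (pb a.π a.e) (pb a.π a.m) := fun _ _ r =>
    a.fl _ _ ((r.mono sb).map a.pk.mon)
  obtain ⟨g, hg⟩ := Nice.eqD_cb a.pk.nice' cm (let ⟨g, hg⟩ := a.ex
    ⟨g ∘ a.π, fun _ b _ c l => hg _ (a.pk.uz_of b) _ (a.pk.uz_of c) (a.pk.mon l)⟩)
  exact discard hd a.pk.st' ⟨ds, sp⟩ cm fm hg ⟨k1, k2⟩

theorem hbo (hd : DiscStmt) (ht : TransStmt) (hf : FinStmt) (hg : GoodStmt) : HBo a.s' n := by
  suffices ∀ μ ν, ∀ a : Sg n, a.mu = μ → a.nu = ν → HBo a.s' n from this _ _ a rfl rfl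
  intro μ
  induction μ using Nat.strong_induction_on with | _ μ ih =>
  intro ν
  induction ν using Nat.strong_induction_on with | _ ν ih' =>
  rintro a rfl rfl
  by_cases h : ∃ F, IsCmp (Mx (Inn a.s'.A) (pb a.π a.e)) F ∧ eu F = 1 ∧
      Tc (Inn a.s'.A) (pb a.π a.e) F ∧ ep a.s'.A (pb a.π a.e) F = 0
  · obtain ⟨F, a1, a2, a3, a4⟩ := h
    obtain ⟨b, ⟨g, d⟩, k⟩ : ∃ b, Lt b a := by
      obtain ⟨E, h⟩ | ⟨E, h⟩ := site hp hm hi a.pk.st' (a.pk.z1_pb a.ds.toZ1) a1 a2 a3 a4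
      · exact a.step hp hm hi ha ht h
      · obtain ⟨b, k⟩ := a.rv.step hp hm hi ha ht (E := E) (a.rv_pb ▸ h)
        exact ⟨b, k.rv⟩
    obtain ⟨t, f, e, d', r⟩ : HBo b.s' n := k.elim (fun l => ih _ l _ b rfl rfl) fun l =>
      l.1.lt_or_eq.elim (fun l => ih _ l _ b rfl rfl) fun o => ih' _ l.2 b o rfl
    exact ⟨t, _, e, d.trans d', r⟩
  · exact a.last hd hf hg fun F a1 a2 a3 a4 => h ⟨F, a1, a2, a3, a4⟩

end Sg

theorem ws_inn {P : Type} [PartialOrder P] [Fintype P] {A : Set P} (hT : Thick A) :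
    WS (Inn A) A id :=
  WS.of_ge (fun _ k => k.1) (fun _ _ _ _ l => l) fun y hy => by
    by_cases k : y ∈ Fr A
    · convert hT.inn y k using 1
      exact Set.ext fun _ => ⟨fun l => ⟨l.1.1, l.2, l.1.2⟩, fun l => ⟨⟨l.1, l.2.2⟩, l.2.1⟩⟩
    · exact sctr_min (m := y) ⟨⟨hy, k⟩, le_rfl⟩ fun _ l => l.2

/-- P2 -/
theorem p2_of (hp : NegPStmt) (hm : NegMStmt) (hi : InnStmt) (ha : AmStmt) (hd : DiscStmt)
    (ht : TransStmt) (hf : FinStmt) (hg : GoodStmt) : P2Stmt (par' HBo) := by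
  rintro s n hs ⟨t, f, e, d, ds, ie⟩
  by_cases k : ix t.A e ≤ n
  · exact Or.inl ⟨t, f, e, d, ds, k⟩
  have st : Stt t := stt_desc hs d
  have gd := good_inn st.toGood st.thick
  obtain ⟨D, hD, lt⟩ : ∃ D ∈ cs (Mx (Inn t.A) e), ep t.A e D - 2 ≠ 0 :=
    exists_ne_zero_of_sum_ne_zero fun o : ix t.A e = 0 => k (o ▸ Nat.zero_le _)
  have cD := mem_cs.1 hD
  have cl := Am43.clo_cmp cD
  have f0 : Fl (Inn t.A) e e := fun _ _ _ o => o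
  have cm : Coc (Inn t.A) (Am43.on e D e) := Am43.coc_on ds.toZ1 inn_up gd.nice cl f0 ds.coc
  have fm : Fl (Inn t.A) e (Am43.on e D e) := fun x y _ o => by
    rw [Am43.on, o, ite_self]
  have hx : Ix t.A e (Am43.on e D e) n := ⟨ix_eq (A := t.A) ▸ ie, by
    have := ixp_erase (p := Um (Am43.on e D e)) cD fun o =>
      let ⟨c, hc⟩ := cD.ne
      (cD.sub hc).2.ne' (((Am43.on_eq ds.toZ1 inn_up gd.nice cl f0 (cD.sub hc).1 c.bot_mem c.top_mem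
        c.bot_le_top).trans (if_pos hc)).symm.trans (o c hc))
    omega⟩
  generalize Am43.on e D e = m at cm fm hx
  obtain ⟨w, cw, g, hg'⟩ := (ws_inn st.thick).onto (Coc.cocOn cm)
  obtain ⟨ζ, cζ, eζ⟩ := Nice.exists_coc st.nice cw
  refine Or.inr ⟨t, f, ζ, d, cζ, fun s' ⟨t', f', z, π, d', ⟨g', co⟩, _, ad, ps, cv, s2⟩ => ?_⟩
  have pk := pk_of (stt_desc st d') s2 cv ad ps
  have e1 := Sup43.inn_desc d'
  refine Sg.hbo ⟨t', s', z, π, pb f' e, pb f' m, pk, ds.desc d' st, e1 ▸ cm.pb d'.mono,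
    fun x y r o => fm _ _ (Dp.map d'.mono (e1 ▸ r)) o,
    ⟨fun x => g (f' x) - g' x, fun x a y b l => ?_⟩, hx.desc d' st ds.toZ1 cm fm⟩
    hp hm hi ha hd ht hf hg
  have a' : f' x ∈ Inn t.A := by have := a.1; rwa [e1] at this
  have b' : f' y ∈ Inn t.A := by have := b.1; rwa [e1] at this
  have h1 : m (f' x) (f' y) - w (f' x) (f' y) = _ := hg' _ a' _ b' (d'.mono l)
  have h2 := eζ _ a'.1 _ b'.1 (d'.mono l)
  have h3 : z x y = ζ (f' x) (f' y) + (g' y - g' x) := co x y (dp_hi b.1.1 l le_rfl)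
  rw [pk.z_uz a l] at h3
  show m (f' x) (f' y) = g (f' y) - g' y - (g (f' x) - g' x)
  omega

/-- BASE for `HBo` -/
theorem base_of (hc : ConvStmt) (hb : BaseStmt Ind26.par) : BaseStmt (par' HBo) :=
  fun s hs h => hb s hs (hc s hs h)

end Crest.Agent.X212.Pt30
end
end

-- ▼ part X212/Mc37/Sph
section

/-!
# X212 / Mc37 (helper37): the boundary sphere of a ball and an innermost disc on it
-/

set_option autoImplicit false
set_option linter.unusedSectionVars false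

open Finset Classical

noncomputable section

namespace Crest.Agent.X212.Mc37

open Crest.Agent.X212.Hp13 Alg36 Cut21 Ind26 Pt30
open Sf30 hiding Inn
open Kh11 (WS In)

variable {P : Type} [PartialOrder P] [Fintype P] {V U M W : Set P} {S C : Set (Ch P)}

/-- the boundary of an upper set -/
def Bd (V : Set P) : Set (Ch P) := {c | c.bot ∉ V ∧ c.top ∈ V}

theorem mix_eq (hV : IsUpperSet V) : mix V = Bd V := Set.ext fun c =>
  ⟨fun ⟨⟨_, ha, k⟩, _, hb, k'⟩ => ⟨fun j => k' (hV (Ch.bot_le hb) j), hV (Ch.le_top ha) k⟩,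
    fun h => ⟨⟨_, c.top_mem, h.2⟩, _, c.bot_mem, h.1⟩⟩

theorem bd_up (hV : IsUpperSet V) : IsUpperSet (Bd V) := fun _ _ l h =>
  ⟨fun j => h.1 (hV (Ch.bot_anti l) j), hV (Ch.top_mono l) h.2⟩

theorem pr_bd {x y : P} (h : x ≤ y) (hx : x ∉ V) (hy : y ∈ V) : Ch.pr x y h ∈ Bd V :=
  ⟨by rwa [Ch.bot_pr], by rwa [Ch.top_pr]⟩

theorem tr_bd {x y w : P} (h : x ≤ y) (h' : y ≤ w) (hx : x ∉ V) (hw : w ∈ V) :
    Ch.tr x y w h h' ∈ Bd V := ⟨by rwa [Ch.bot_tr], by rwa [Ch.top_tr]⟩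

/-- the cell of a boundary chain -/
def kb {c : Ch P} (h : c ∈ Bd V) : Lv V (cb (ind V)) :=
  kc ⟨c.top, h.2, fun _ hx => Or.inr (Ch.le_top hx)⟩ h.1 h.2

theorem ws_lv (h : S ⊆ Bd V) : WS {p : Lv V (cb (ind V)) | p.1.1 ∈ S} S fun p => p.1.1 :=
  WS.of_iso (fun _ hx => hx) (fun _ hc => ⟨kb (h hc), hc, rfl⟩)
    fun _ _ _ _ => ⟨lv_le_pot, lv_ch_le⟩

theorem mf_lv (hV : IsUpperSet V) (hM : Mf 3 V) : Mf 2 (Set.univ : Set (Lv V (cb (ind V)))) := by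
  have : Mono V (cb (ind V)) := fun x y h => by
    by_cases hx : x ∈ V
    · rw [cb_ind_zero (iff_of_true hx (hV h.1 hx))]
    · simp only [cb, ind, if_neg hx]; split_ifs <;> simp
  exact (Set.eq_univ_of_forall fun p => ⟨_, p.1.1.top_mem, (lv_pos p).2⟩ :
    LA V (cb (ind V)) = _) ▸ mf_LA hM this

/-- a disc on the boundary -/
theorem ctr_bd (hV : IsUpperSet V) (hM : Mf 3 V) (h : S ⊆ Bd V) (hc : Conn S) (h1 : 1 ≤ eu S)
    {c d : Ch P} (k : c ∈ S) (k' : d ∈ Bd V) (hd : d ∉ S) (l : Cm c d) : Ctr S :=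
  (ws_lv h).ctr_iff.1 (Mf.ctr_of_eu (mf_lv hV hM) (Set.subset_univ _) ((ws_lv h).conn_iff.2 hc)
    (esc_of (Set.subset_univ _) ((ws_lv h).conn_iff.2 hc) (a := kb (h k)) (x := kb k') k hd
      (l.imp lv_le_pot lv_le_pot)) ((ws_lv h).eu_eq ▸ h1))

/-- some member of `C` goes from `x` to `y` -/
def Rl (C : Set (Ch P)) (x y : P) : Prop := ∃ c ∈ C, c.bot = x ∧ c.top = y

theorem rl_iff (hC : IsCmp S C) {d : Ch P} (hd : d ∈ S) {x y : P} (l : x ≤ y) (hx : x ∈ d.1)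
    (hy : y ∈ d.1) (h : Ch.pr x y l ∈ S) : Rl C x y ↔ d ∈ C :=
  ⟨fun ⟨c, hc, e1, e2⟩ => hC.clopen (hC.clopen hc h
      (Or.inr (Ch.pr_le l (e1 ▸ c.bot_mem) (e2 ▸ c.top_mem)))) hd (Or.inl (Ch.pr_le l hx hy)),
    fun k => ⟨_, hC.clopen k h (Or.inr (Ch.pr_le l hx hy)), Ch.bot_pr .., Ch.top_pr ..⟩⟩

/-- the boundary of a connected region is connected if the outside is joined to `∂M` -/
theorem conn_bd (hV : IsUpperSet V) (hs : V ⊆ M) (hB : Bnd ℤ M) (hc : Conn V)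
    (ho : ∀ x ∈ M \ V, ∀ v ∈ V, x ≤ v → ∃ n, Rch (M \ V) x n ∧ ∃ o, o ∉ M ∧ o ≤ n) :
    Conn (Bd V) := fun c0 h0 c hc' => by
  have hC := isCmp_cmp h0
  set C := cmp (Bd V) c0
  let φ : P → P → ℤ := fun x y => if Rl C x y then 1 else 0
  have r : ∀ x y, Rl C x y → x ∉ V ∧ y ∈ V := fun x y ⟨c, k, e1, e2⟩ => e1 ▸ e2 ▸ hC.sub k
  have z1 : ∀ x y, x ∈ V → φ x y = 0 := fun x y k => if_neg fun j => (r _ _ j).1 k
  have z2 : ∀ x y, y ∉ V → φ x y = 0 := fun x y k => if_neg fun j => k (r _ _ j).2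
  obtain ⟨g, g0, hg⟩ := hB φ (fun _ _ x y w l l' _ _ _ => by
    by_cases hx : x ∈ V
    · rw [z1 x _ hx, z1 x _ hx, z1 y _ (hV l hx), add_zero]
    by_cases hw : w ∈ V
    swap
    · rw [z2 _ w hw, z2 _ w hw, z2 _ y fun j => hw (hV l' j), add_zero]
    have t := tr_bd l l' hx hw
    have e := rl_iff hC t (l.trans l') (Ch.mem_tr.2 (by simp)) (Ch.mem_tr.2 (by simp))
      (pr_bd _ hx hw)
    by_cases hy : y ∈ V
    · rw [z1 y _ hy, add_zero]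
      exact if_congr (e.trans (rl_iff hC t l (Ch.mem_tr.2 (by simp)) (Ch.mem_tr.2 (by simp))
        (pr_bd _ hx hy)).symm) rfl rfl
    · rw [z2 _ y hy, zero_add]
      exact if_congr (e.trans (rl_iff hC t l' (Ch.mem_tr.2 (by simp)) (Ch.mem_tr.2 (by simp))
        (pr_bd _ hy hw)).symm) rfl rfl) fun x y _ _ hy => z2 _ _ fun j => hy (hs j)
  have e : ∀ x, ∀ y ∈ M, x ≤ y → φ x y = g y - g x := fun x y hy l => by
    simpa [cb] using hg x y (Dp.of_right hy l)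
  have b : ∀ d ∈ Bd V, φ d.bot d.top = g d.top := fun d hd => by
    rw [e _ _ (hs hd.2) d.bot_le_top, sub_eq_self]
    by_cases k : d.bot ∈ M
    swap
    · exact g0 _ k
    obtain ⟨n, h1, o, h2, h3⟩ := ho _ ⟨k, hd.1⟩ _ hd.2 d.bot_le_top
    have hn := h1.mem ⟨k, hd.1⟩
    have h4 := e o n hn.1 h3
    rw [z2 _ _ hn.2, g0 o h2] at h4
    rw [h1.eq (g := g) fun x _ y hy l => by have := e x y hy.1 l; rw [z2 _ _ hy.2] at this; omega]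
    omega
  have h5 : φ c.bot c.top = 1 := by
    rw [b c hc', (hc _ hc'.2 _ h0.2).eq (g := g) fun x hx y hy l => by
      have := e x y (hs hy) l; rw [z1 _ _ hx] at this; omega, ← b c0 h0]
    exact if_pos ⟨c0, mem_cmp_self h0, rfl, rfl⟩
  have h6 : Rl C c.bot c.top := by_contra fun k => by simp [φ, k] at h5
  exact ((rl_iff hC hc' c.bot_le_top c.bot_mem c.top_mem (pr_bd _ hc'.1 hc'.2)).1 h6).2

theorem h1z_cmp {E X : Set P} (hX : IsCmp E X) (h : H1Z E) : H1Z X := fun w hw => by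
  obtain ⟨g, hg⟩ := h (fun x y => if x ∈ X then w x y else 0) fun x hx y hy t ht l l' => by
    by_cases k : x ∈ X
    · have k' := hX.clopen k hy (Or.inl l)
      simp only [if_pos k, if_pos k']
      exact hw x k y k' t (hX.clopen k' ht (Or.inl l')) l l'
    · simp only [if_neg k, if_neg fun j => k (hX.clopen j hx (Or.inr l)), add_zero]
  exact ⟨g, fun x hx y hy l => by simpa [hx] using hg x (hX.sub hx) y (hX.sub hy) l⟩

/-- the components without cohomology -/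
def Gd (T : Set P) : Set P := {x | x ∈ T ∧ H1Z (cmp T x)}

theorem gd_clo {T : Set P} {x y : P} (hx : x ∈ Gd T) (hy : y ∈ T) (l : Cm x y) : y ∈ Gd T :=
  ⟨hy, cmp_eq (Rch.of_cm hx.1 hy l) ▸ hx.2⟩

theorem h1z_gd (T : Set P) : H1Z (Gd T) := fun w hw => by
  have : ∀ X : Set P, ∃ g : P → ℤ, H1Z X → X ⊆ Gd T →
      ∀ x ∈ X, ∀ y ∈ X, x ≤ y → w x y = g y - g x := fun X => by
    by_cases k : H1Z X ∧ X ⊆ Gd T
    · obtain ⟨g, hg⟩ := k.1 w (CocOn.mono hw k.2)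
      exact ⟨g, fun _ _ => hg⟩
    · exact ⟨0, fun h1 h2 => (k ⟨h1, h2⟩).elim⟩
  choose g hg using this
  refine ⟨fun x => g (cmp T x) x, fun x hx y hy l => ?_⟩
  have r := Rch.of_cm hx.1 hy.1 (Or.inl l)
  simp only [← cmp_eq r]
  exact hg _ hx.2 (fun t ht => ⟨ht.1, cmp_eq ht.2 ▸ hx.2⟩) x (mem_cmp_self hx.1) y ⟨hy.1, r⟩ l

/-- `V \ U` is two sided in `V` -/
structure Two (V U : Set P) (σ : P → P → Prop) : Prop where
  up : IsUpperSet V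
  upU : IsUpperSet U
  l : ∀ k ∈ V \ U, ∀ k' ∈ V \ U, ∀ u ∈ U, k ≤ k' → k' ≤ u → (σ k u ↔ σ k' u)
  r : ∀ k ∈ V \ U, ∀ u ∈ U, ∀ u', k ≤ u → u ≤ u' → (σ k u ↔ σ k u')
  ex : ∀ k ∈ V \ U, ∀ p : Prop, ∃ u ∈ U, k ≤ u ∧ (σ k u ↔ p)

variable {σ : P → P → Prop}

theorem Two.ch (h : Two V U σ) {c : Ch P} {k k' u u' : P} (a1 : k ∈ c.1) (a2 : k' ∈ c.1)
    (a3 : u ∈ c.1) (a4 : u' ∈ c.1) (hk : k ∈ V \ U) (hk' : k' ∈ V \ U) (hu : u ∈ U)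
    (hu' : u' ∈ U) : σ k u ↔ σ k' u' := by
  have ht := h.upU (Ch.le_top a3) hu
  rw [h.r k hk u hu _ ((c.cm a1 a3).resolve_right fun j => hk.2 (h.upU j hu)) (Ch.le_top a3),
    h.r k' hk' u' hu' _ ((c.cm a2 a4).resolve_right fun j => hk'.2 (h.upU j hu')) (Ch.le_top a4)]
  exact (c.cm a1 a2).elim (fun j => h.l k hk k' hk' _ ht j (Ch.le_top a2))
    fun j => (h.l k' hk' k hk _ ht j (Ch.le_top a1)).symm

/-- the boundary cells that miss `V \ U` -/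
def Hs (V U : Set P) : Set (Ch P) := {c | c ∈ Bd V ∧ ¬ Mt (V \ U) c}

theorem Hs.top {c : Ch P} (h : c ∈ Hs V U) : c.top ∈ U :=
  by_contra fun k => h.2 ⟨_, c.top_mem, h.1.2, k⟩

theorem pr_hs {x u : P} (l : x ≤ u) (hx : x ∉ V) (hv : u ∈ V) (hu : u ∈ U) :
    Ch.pr x u l ∈ Hs V U := ⟨pr_bd l hx hv, fun ⟨a, ha, k⟩ => by
  rcases mem_insert.1 ha with rfl | ha
  exacts [hx k.1, k.2 (mem_singleton.1 ha ▸ hu)]⟩

/-- **an innermost disc** -/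
theorem Two.disc (h : Two V U σ) (hM : Mf 3 V) (hc : Conn (Bd V)) (he : 1 ≤ eu V) {x0 k0 : P}
    (hx0 : x0 ∉ V) (hk0 : k0 ∈ V \ U) (l0 : x0 ≤ k0) : ∃ Δ, IsCmp (Hs V U) Δ ∧ eu Δ = 1 ∧
      (∃ p : Prop, ∀ c ∈ Δ, ∀ d, c ≤ d → ∀ k ∈ d.1, k ∈ V \ U → (σ k c.top ↔ p)) ∧
      ∃ c ∈ Δ, ∃ d, c ≤ d ∧ Mt (V \ U) d := by
  let G : Set (Lv V (cb (ind V))) := {p | Mt (V \ U) p.1.1}
  have col := col_diff (Set.subset_univ G)
  have mf := mf_lv h.up hM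
  have w0 := ws_lv (V := V) subset_rfl
  rw [show {p : Lv V (cb (ind V)) | p.1.1 ∈ Bd V} = Set.univ from
    Set.eq_univ_of_forall fun p => lv_pos p] at w0
  let β : Ch (Lv V (cb (ind V))) → Prop := fun D =>
    ∃ k ∈ D.top.1.1.1, k ∈ V \ U ∧ σ k D.bot.1.1.top
  have tb : ∀ D ∈ If G (Set.univ \ G), Mt (V \ U) D.top.1.1 ∧ D.bot.1.1.top ∈ U :=
    fun D ⟨⟨p, hp, k⟩, q, hq, k'⟩ => ⟨Mt.mono k (lv_ch_le (Ch.le_top hp)), Hs.top
      ⟨lv_pos _, fun j => k'.2 (j.mono (lv_ch_le (Ch.bot_le hq)))⟩⟩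
  have key : ∀ D ∈ If G (Set.univ \ G), ∀ k ∈ D.top.1.1.1, ∀ u ∈ D.top.1.1.1, k ∈ V \ U → u ∈ U →
      (β D ↔ σ k u) := fun D hD k a1 u a2 hk hu => by
    have m := lv_ch_le D.bot_le_top D.bot.1.1.top_mem
    exact ⟨fun ⟨k', b1, b2, b3⟩ => (h.ch b1 a1 m a2 b2 hk (tb D hD).2 hu).1 b3,
      fun j => ⟨k, a1, hk, (h.ch a1 a1 m a2 hk hk (tb D hD).2 hu).2 j⟩⟩
  have mx : ∀ X, Reg G (Set.univ \ G) X → ∀ D ∈ mix X, D ∈ If G (Set.univ \ G) :=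
    fun X hX D hD => (hX.mix_cases col hD).resolve_right fun ⟨_, _, k⟩ => k trivial
  have inv : ∀ D ∈ If G (Set.univ \ G), ∀ E, D ≤ E → β D = β E := fun D hD E l => by
    obtain ⟨⟨k, a1, hk⟩, hu⟩ := tb D hD
    have m := lv_ch_le D.bot_le_top D.bot.1.1.top_mem
    have l' := lv_ch_le (Ch.top_mono l)
    exact propext ((key D hD k a1 _ m hk hu).trans
      (key E (if_upper l hD) k (l' a1) _ (l' m) hk hu).symm)
  obtain ⟨u0, hu0, l1, -⟩ := h.ex k0 hk0 True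
  have hG : G.Nonempty := ⟨kb (pr_bd l0 hx0 hk0.1), k0, by simp [kb, kc], hk0⟩
  have hH : (Set.univ \ G).Nonempty := ⟨kb (pr_hs (l0.trans l1) hx0 (h.up l1 hk0.1) hu0).1,
    trivial, (pr_hs (l0.trans l1) hx0 (h.up l1 hk0.1) hu0).2⟩
  have hcu := w0.conn_iff.2 hc
  have h1 := card_one mf col hcu hG hH
  rw [w0.eu_eq, ← mix_eq h.up, Mf.eu_mix hM] at h1
  obtain ⟨X, hX⟩ := card_pos.1 (show 0 < ((cs G ∪ cs (Set.univ \ G)).filter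
    fun X => eu X = 1).card by omega)
  have r := mem_reg.1 (mem_filter.1 hX).1
  have e := (mem_filter.1 hX).2
  have mfX := mf.mono (Set.subset_univ X)
  rcases id r with hX | hX
  · exfalso
    have := eu_add_le mfX r.conn β (fun D hD => inv D (mx X r D hD)) univ fun i _ => by
      obtain ⟨p, hp⟩ := hX.ne
      obtain ⟨k, a1, hk⟩ := hX.sub hp
      obtain ⟨u, hu, l, hi⟩ := h.ex k hk i
      have lb := Ch.bot_le a1
      have hv := h.up l hk.1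
      have q1 := pr_hs (lb.trans l) (lv_pos p).1 hv hu
      have q2 := tr_bd lb l (lv_pos p).1 hv
      have mk : k ∈ (kb q2).1.1.1 := (Ch.mem_tr (h1 := lb) (h2 := l)).2 (by simp)
      have mu : u ∈ (kb q2).1.1.1 := (Ch.mem_tr (h1 := lb) (h2 := l)).2 (by simp)
      have mb : p.1.1.bot ∈ (kb q2).1.1.1 := (Ch.mem_tr (h1 := lb) (h2 := l)).2 (by simp)
      have q3 : kb q2 ∈ X := hX.clopen (hX.clopen hp (y := kb (pr_bd lb (lv_pos p).1 hk.1))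
        ⟨k, by simp [kb, kc], hk⟩ (Or.inr (lv_le_pot (Ch.pr_le lb p.1.1.bot_mem a1))))
        ⟨k, mk, hk⟩ (Or.inl (lv_le_pot (Ch.pr_le lb mb mk)))
      have l2 : kb q1.1 ≤ kb q2 := lv_le_pot (Ch.pr_le (lb.trans l) mb mu)
      have m : Ch.pr _ _ l2 ∈ mix X := ⟨⟨kb q2, by simp, q3⟩, kb q1.1, by simp,
        fun j => q1.2 (hX.sub j)⟩
      exact ⟨_, m, propext ((key _ (mx X r _ m) k (by rwa [Ch.top_pr]) u (by rwa [Ch.top_pr])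
        hk hu).trans hi)⟩
    rw [card_univ, Fintype.card_prop] at this
    omega
  have w1 := ws_lv (V := V) (S := Hs V U) fun _ k => k.1
  rw [show {p : Lv V (cb (ind V)) | p.1.1 ∈ Hs V U} = Set.univ \ G from
    Set.ext fun p => ⟨fun k => ⟨trivial, k.2⟩, fun k => ⟨lv_pos p, k.2⟩⟩] at w1
  obtain ⟨Δ, hΔ, eX⟩ := w1.isCmp_ex hX
  obtain ⟨D0, d1, d2⟩ := r.exists_if col hcu hG hH
  have d3 := r.mix col d1 d2
  refine ⟨Δ, hΔ, by rw [← (w1.restr (Kh11.clo_cmp hΔ)).eu_eq, ← eX, e], ⟨β D0, ?_⟩, ?_⟩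
  · intro c hc d l k a1 hk
    have q1 := hΔ.sub hc
    have l2 : kb q1.1 ≤ kb (bd_up h.up l q1.1) := lv_le_pot l
    have m : Ch.pr _ _ l2 ∈ mix X := ⟨⟨kb q1.1, by simp, eX ▸ ⟨⟨trivial, q1.2⟩, hc⟩⟩,
      kb (bd_up h.up l q1.1), by simp, fun j => (hX.sub j).2 ⟨k, a1, hk⟩⟩
    rw [← (conn_mix2 mfX r.conn e.ge _ m _ d3).eq fun D hD E _ => inv D (mx X r D hD) E]
    exact (key _ (mx X r _ m) k (by rwa [Ch.top_pr]) _ (by rw [Ch.top_pr]; exact l c.top_mem) hk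
      (Hs.top q1)).symm
  · obtain ⟨p, hp, k⟩ := d2
    exact ⟨p.1.1, (eX ▸ k :).2, D0.top.1.1, lv_ch_le (Ch.le_top hp), (tb D0 d1).1⟩

end Crest.Agent.X212.Mc37
end
end

-- ▼ part X212/Mc37/Core
section

/-!
# X212 / Mc37 (helper37): the test disc in the cut manifold
-/

set_option autoImplicit false
set_option linter.unusedSectionVars false

open Finset Classical

noncomputable section

namespace Crest.Agent.X212.Mc37

open Crest.Agent.X212.Hp13 Alg36 Cut21 Ind26 Pt30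
open Sf30 hiding Inn
open Sup43 (Inn inn_up inn_sub good_inn inn_desc)
open Kh11 (WS In)

section
variable {P : Type} [PartialOrder P] [Fintype P] {V U B : Set P} {Δ : Set (Ch P)}

theorem Rl.mem (hΔ : IsCmp (Hs V U) Δ) {x u : P} (h : Rl Δ x u) : x ∉ V ∧ u ∈ V ∧ u ∈ U :=
  let ⟨_, k, e1, e2⟩ := h; e1 ▸ e2 ▸ ⟨(hΔ.sub k).1.1, (hΔ.sub k).1.2, Hs.top (hΔ.sub k)⟩

theorem tr_hs {x y w : P} (l : x ≤ y) (l' : y ≤ w) (hx : x ∉ V) (hy : y ∉ V \ U) (hw : w ∈ V)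
    (hu : w ∈ U) : Ch.tr x y w l l' ∈ Hs V U := ⟨tr_bd l l' hx hw, fun ⟨a, ha, k⟩ => by
  rcases Ch.mem_tr.1 ha with rfl | rfl | rfl
  exacts [hx k.1, hy k, k.2 hu]⟩

theorem rl_r (hΔ : IsCmp (Hs V U) Δ) (hV : IsUpperSet V) (hU : IsUpperSet U) {x u u' : P}
    (l : x ≤ u) (l' : u ≤ u') (hv : u ∈ V) (hu : u ∈ U) : Rl Δ x u ↔ Rl Δ x u' := by
  by_cases hx : x ∈ V
  · exact iff_of_false (fun k => (k.mem hΔ).1 hx) fun k => (k.mem hΔ).1 hx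
  have t := tr_hs l l' hx (fun k => k.2 hu) (hV l' hv) (hU l' hu)
  exact (rl_iff hΔ t l (Ch.mem_tr.2 (by simp)) (Ch.mem_tr.2 (by simp)) (pr_hs _ hx hv hu)).trans
    (rl_iff hΔ t (l.trans l') (Ch.mem_tr.2 (by simp)) (Ch.mem_tr.2 (by simp))
      (pr_hs _ hx (hV l' hv) (hU l' hu))).symm

theorem rl_l (hΔ : IsCmp (Hs V U) Δ) (hV : IsUpperSet V) {x x' u : P}
    (l : x ≤ x') (l' : x' ≤ u) (hx : x' ∉ V) (hv : u ∈ V) (hu : u ∈ U) :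
    Rl Δ x u ↔ Rl Δ x' u := by
  have hx0 : x ∉ V := fun k => hx (hV l k)
  have t := tr_hs l l' hx0 (fun k => hx k.1) hv hu
  exact (rl_iff hΔ t (l.trans l') (Ch.mem_tr.2 (by simp)) (Ch.mem_tr.2 (by simp))
    (pr_hs _ hx0 hv hu)).trans (rl_iff hΔ t l' (Ch.mem_tr.2 (by simp)) (Ch.mem_tr.2 (by simp))
      (pr_hs _ hx hv hu)).symm

/-- the disc with its collar -/
theorem ws_bar (hΔ : IsCmp (Hs V U) Δ) (hV : IsUpperSet V) :
    WS Δ {c | Rl Δ c.bot c.top} id := by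
  refine WS.of_int' (fun c hc => ⟨c, hc, rfl, rfl⟩) fun c hc => ?_
  obtain ⟨h1, h2, h3⟩ := Rl.mem hΔ hc
  have m1 : c.bot ∈ c.1.filter (· ∉ V \ U) := mem_filter.2 ⟨c.bot_mem, fun k => h1 k.1⟩
  have m2 : c.top ∈ c.1.filter (· ∉ V \ U) := mem_filter.2 ⟨c.top_mem, fun k => k.2 h3⟩
  refine ⟨c.sub _ ⟨_, m1⟩ (filter_subset _ _), (rl_iff hΔ ⟨⟨fun k => h1 (hV (Ch.bot_le m1) k),
    hV (Ch.le_top m2) h2⟩, fun ⟨_, ha, k⟩ => (mem_filter.1 ha).2 k⟩ c.bot_le_top m1 m2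
    (pr_hs _ h1 h2 h3)).1 hc, filter_subset _ _, fun d hd l x hx => mem_filter.2
      ⟨l hx, fun k => (hΔ.sub hd).2 ⟨x, hx, k⟩⟩⟩

theorem om_sd {n : Ch P} : n ∈ Om (Ch.top ⁻¹' B : Set (Ch P)) ↔ n.top ∈ Om B :=
  ⟨fun ⟨h, i, hi, l⟩ => ⟨h, i.top, hi, Ch.top_mono l⟩, fun ⟨h, b, hb, l⟩ =>
    ⟨h, n.ins b fun _ hx => Or.inr ((Ch.le_top hx).trans l),
      show (n.ins b _).top ∈ B by rwa [top_ins' _ l], n.le_ins _ _⟩⟩

theorem om_dn (hB : IsUpperSet B) {x y : P} (hy : y ∈ Om B) (l : x ≤ y) : x ∈ Om B :=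
  let ⟨h, b, hb, l'⟩ := hy; ⟨fun k => h (hB l k), b, hb, l.trans l'⟩

theorem conn_ge (hB : IsUpperSet B) (hN : Nice B) (y : P) : Conn {b | b ∈ B ∧ y ≤ b} := by
  by_cases k : y ∈ B
  · exact conn_cone (m := y) ⟨k, le_rfl⟩ fun _ hx => Or.inr hx.2
  · intro b hb
    exact (Nice.ctr_ge hB.ordConnected hN ⟨k, b, hb⟩).conn b hb

end

/-- the facts on a cut that are used -/
structure Fx (s s' : St) (z : s.P → s.P → ℤ) (π : s'.P → s.P) : Prop extends Pk s s' z π where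
  f1 : ∀ b ∈ s'.A, b ∈ Inn s'.A ↔ π b ∈ Uz s.A z
  f4 : ∀ k ∈ Inn s.A \ Uz s.A z, Ctr (Lz s.A z k 0) ∧ Ctr (Lz s.A z k 1)
  f6 : ∀ q ∈ Om (Inn s'.A), π q ∉ Inn s.A →
    ∃ q', Rch {r | r ∈ Om (Inn s'.A) ∧ π r ∉ Inn s.A} q q' ∧
      ∃ y b, y ∉ s'.A ∧ b ∈ Fr s'.A ∧ y ≤ b ∧ (q' = y ∨ q' = b)
  f7 : Out (Inn s.A) (Inn s.A \ Uz s.A z)

/-- what is used of the reversed surface -/
def RvStmt : Prop := ∀ (s : St) (e : s.P → s.P → ℤ), Stt s → Z1 (Inn s.A) e →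
  Z1 (Inn s.sd.A) (rev e) ∧ Vt s.sd.A (rev e) ∧
    WS (Mx (Inn s.sd.A) (rev e)) (Mx (Inn s.A) e) Ch.top

variable {s s' : St} {z : s.P → s.P → ℤ} {π : s'.P → s.P}

/-- the lifts of the cutting surface to one side -/
def Ts (s : St) (z : s.P → s.P → ℤ) (π : s'.P → s.P) (p : Prop) : Set s'.P :=
  {q | q ∈ Om (Inn s'.A) ∧ π q ∈ Inn s.A \ Uz s.A z ∧ (q ∈ s'.A ↔ p)}

namespace Fx
variable (h : Fx s s' z π)
include h

theorem add {x y w : s.P} (hw : w ∈ s.A) (l : x ≤ y) (l' : y ≤ w) : z x w = z x y + z y w :=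
  h.adm.sf.coc w hw x y w l l' (Or.inr (l.trans l')) (Or.inr l') Cm.rfl

theorem nn {x y w : s.P} (hw : w ∈ s.A) (l : x ≤ y) (l' : y ≤ w) : 0 ≤ z x y :=
  h.adm.sf.1 x y ⟨l, w, hw, Or.inr (l.trans l'), Or.inr l'⟩

theorem upU : IsUpperSet (Uz s.A z) := fun u v l hu => ⟨inn_up l hu.1, fun ⟨_, w, hw, l', k⟩ =>
  hu.2 ⟨hu.1.1, w, hw, l.trans l', by
    have := h.nn hw l l'; rw [h.add hw l l']; omega⟩⟩

theorem zU {u v : s.P} (hu : u ∈ Uz s.A z) (l : u ≤ v) : z u v = 0 :=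
  have hv := (inn_up l hu.1).1
  le_antisymm (not_lt.1 fun k => hu.2 ⟨hu.1.1, v, hv, l, k⟩) (h.nn hv l le_rfl)

theorem zK {x k : s.P} (hk : k ∈ Inn s.A \ Uz s.A z) (l : x ≤ k) : z x k = 0 := by
  obtain ⟨-, w, hw, l', j⟩ : k ∈ Kz s.A z := by_contra fun j => hk.2 ⟨hk.1, j⟩
  have := h.jk x w (Or.inl hw) (l.trans l')
  have := h.nn hw l l'
  rw [h.add hw l l'] at *
  omega

theorem memB {q b : s'.P} (hb : b ∈ Inn s'.A) (l : q ≤ b) (hq : π q ∈ Uz s.A z) :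
    q ∈ Inn s'.A :=
  have k := (h.cov.dn b hb.1 q l).2 ⟨hq.1.1, h.zU hq (h.cov.mon l)⟩
  (h.f1 q k).2 hq

theorem exB {u : s.P} (hu : u ∈ Uz s.A z) : ∃ b ∈ Inn s'.A, π b = u :=
  let ⟨b, hb, e⟩ := h.cov.exA hu.1.1; ⟨b, (h.f1 b hb).2 (e ▸ hu), e⟩

theorem exD {b : s'.P} (hb : b ∈ Inn s'.A) {x : s.P} (l : x ≤ π b) : ∃ q, q ≤ b ∧ π q = x :=
  let ⟨q, hq, e⟩ := h.cov.ex hb.1 (Or.inr l)
  ⟨q, h.cov.refl b hb.1 q b hq Cm.rfl (e ▸ l), e⟩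

theorem piB {b : s'.P} (hb : b ∈ Inn s'.A) : π b ∈ Uz s.A z := (h.f1 b hb.1).1 hb

theorem side {q b : s'.P} (hb : b ∈ Inn s'.A) (l : q ≤ b) (hq : π q ∈ Inn s.A) :
    q ∈ s'.A ↔ z (π q) (π b) = 0 := (h.cov.dn b hb.1 q l).trans (and_iff_right hq.1)

theorem side_eq {q q' : s'.P} (l : q ≤ q') (h1 : π q ∈ Inn s.A) (h2 : q' ∈ Om (Inn s'.A))
    (h3 : π q' ∈ Inn s.A \ Uz s.A z) : q ∈ s'.A ↔ q' ∈ s'.A := by
  obtain ⟨-, b, hb, l'⟩ := h2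
  rw [h.side hb (l.trans l') h1, h.side hb l' h3.1,
    h.add (h.piB hb).1.1 (h.cov.mon l) (h.cov.mon l'), h.zK h3 (h.cov.mon l), zero_add]

theorem ex_side {k : s.P} (hk : k ∈ Inn s.A \ Uz s.A z) (p : Prop) :
    ∃ u ∈ Uz s.A z, k ≤ u ∧ (z k u = 0 ↔ p) := by
  by_cases hp : p
  · obtain ⟨u, hu⟩ := (h.f4 k hk).1.ne
    exact ⟨u, hu.1, hu.2.1, iff_of_true hu.2.2 hp⟩
  · obtain ⟨u, hu⟩ := (h.f4 k hk).2.ne
    exact ⟨u, hu.1, hu.2.1, iff_of_false (by rw [hu.2.2]; simp) hp⟩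

theorem ts_surj {k : s.P} (hk : k ∈ Inn s.A \ Uz s.A z) (p : Prop) : ∃ q ∈ Ts s z π p, π q = k := by
  obtain ⟨u, hu, l, e⟩ := h.ex_side hk p
  obtain ⟨b, hb, rfl⟩ := h.exB hu
  obtain ⟨q, hq, rfl⟩ := h.exD hb l
  exact ⟨q, ⟨⟨fun j => hk.2 (h.piB j), b, hb, hq⟩, hk, (h.side hb hq hk.1).trans e⟩, rfl⟩

theorem ts_le {p : Prop} {q q' : s'.P} (h1 : q ∈ Ts s z π p) (h2 : q' ∈ Ts s z π p)
    (l : π q ≤ π q') : q ≤ q' := by
  obtain ⟨-, b, hb, k⟩ := h1.1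
  obtain ⟨-, b', hb', k'⟩ := h2.1
  obtain ⟨r, hr, e⟩ := h.exD hb' (l.trans (h.cov.mon k'))
  have l' : r ≤ q' := h.cov.refl b' hb'.1 r q' (Or.inr hr) (Or.inr k') (e ▸ l)
  have hM : π r ∈ Inn s.A := e ▸ h1.2.1.1
  refine h.inj b' hb'.1 b hb.1 r q hr k e ?_ ▸ l'
  have a1 := (h.side hb' hr hM).symm.trans ((h.side_eq l' hM h2.1 h2.2.1).trans
    (h2.2.2.trans (h1.2.2.symm.trans (h.side hb k h1.2.1.1))))
  have a2 := h.jk _ _ (Or.inl (h.piB hb').1.1) (h.cov.mon hr)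
  have a3 := h.jk _ _ (Or.inl (h.piB hb).1.1) (h.cov.mon k)
  have a4 := h.nn (h.piB hb').1.1 (h.cov.mon hr) le_rfl
  have a5 := h.nn (h.piB hb).1.1 (h.cov.mon k) le_rfl
  omega

theorem ws_im {F : Set (Ch s.P)} (hF : ∀ c ∈ F, c.top ∈ Uz s.A z) :
    WS {c : Ch s'.P | c.top ∈ Inn s'.A ∧ h.cov.toLift.im c ∈ F} F h.cov.toLift.im := by
  refine WS.of_iso (fun _ k => k.2) (fun c hc => ?_) fun c hc d hd => ⟨fun l => ?_,
    fun l => h.cov.toLift.im_mono l⟩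
  · obtain ⟨b, hb, e⟩ := h.exB (hF c hc)
    obtain ⟨d, rfl, hd⟩ := h.cov.toLift.ex_thr hb.1 (e ▸ c.top_mem)
    exact ⟨d, ⟨inn_up (Ch.le_top hd) hb, hc⟩, rfl⟩
  · obtain ⟨q, hq, e⟩ := h.cov.toLift.mem_im.1
      (l (h.cov.toLift.mem_im.2 ⟨_, c.top_mem, rfl⟩))
    have := h.cov.bij.injOn (h.memB hd.1 (Ch.le_top hq) (e ▸ h.piB hc.1)).1 hc.1.1 e
    exact (h.cov.toLift.le_thr hc.1.1 c.top_mem (this ▸ hq)).1 l

/-- a walk on the boundary of the cut -/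
theorem walk {V : Set s.P} (hs : V ⊆ Inn s.A) (ho : Out (Inn s.A) ((Inn s.A \ Uz s.A z) \ V))
    {q : s'.P} (hq : q ∈ Om (Inn s'.A)) (hv : π q ∉ V) :
    ∃ q', Rch {r | r ∈ Om (Inn s'.A) ∧ π r ∉ V} q q' ∧
      ∃ y b, y ∉ s'.A ∧ b ∈ Fr s'.A ∧ y ≤ b ∧ (q' = y ∨ q' = b) := by
  suffices k : ∃ r ∈ Om (Inn s'.A), π r ∉ Inn s.A ∧ Rch {r | r ∈ Om (Inn s'.A) ∧ π r ∉ V} q r by
    obtain ⟨r, h1, h2, h3⟩ := k
    obtain ⟨q', h4, h5⟩ := h.f6 r h1 h2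
    exact ⟨q', h3.trans (h4.mono fun _ k => ⟨k.1, fun j => k.2 (hs j)⟩), h5⟩
  by_cases hM : π q ∈ Inn s.A
  swap
  · exact ⟨q, hq, hM, Rch.rfl⟩
  have hk : π q ∈ Inn s.A \ Uz s.A z :=
    ⟨hM, fun j => let ⟨k, _, hb, l⟩ := hq; k (h.memB hb l j)⟩
  obtain ⟨n, h1, o, h2, h3⟩ := ho _ ⟨hk, hv⟩
  have hn := h1.mem ⟨hk, hv⟩
  obtain ⟨r, hr, e, h4⟩ : ∃ r ∈ Ts s z π (q ∈ s'.A), π r = n ∧
      Rch {r | r ∈ Om (Inn s'.A) ∧ π r ∉ V} q r :=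
    Ind26.rch_ind h1 (p := fun n => ∃ r ∈ Ts s z π (q ∈ s'.A), π r = n ∧
      Rch {r | r ∈ Om (Inn s'.A) ∧ π r ∉ V} q r) ⟨q, ⟨hq, hk, Iff.rfl⟩, rfl, Rch.rfl⟩
      fun a ha b hb l ⟨r, hr, e, k⟩ => by
        obtain ⟨r', hr', e'⟩ := h.ts_surj hb.1 (q ∈ s'.A)
        subst e e'
        exact ⟨r', hr', rfl, k.trans (Rch.of_cm ⟨hr.1, ha.2⟩ ⟨hr'.1, hb.2⟩
          (l.imp (h.ts_le hr hr') (h.ts_le hr' hr)))⟩
  subst e
  obtain ⟨-, b, hb, l⟩ := hr.1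
  obtain ⟨x, hx, rfl⟩ := h.exD hb (h3.trans (h.cov.mon l))
  have l' : x ≤ r := h.cov.refl b hb.1 x r (Or.inr hx) (Or.inr l) h3
  have hx' := om_dn inn_up hr.1 l'
  exact ⟨x, hx', h2, h4.trans (Rch.of_cm ⟨hr.1, hn.2⟩ ⟨hx', fun j => h2 (hs j)⟩ (Or.inr l'))⟩

/-- a boundary region cannot be bounded by a curve parallel to a bad piece -/
theorem no_ng {V : Set s.P} (hV : IsUpperSet V) (hs : V ⊆ Inn s.A)
    (ho : Out (Inn s.A) ((Inn s.A \ Uz s.A z) \ V))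
    (bad : ∀ D, IsCmp (V \ Uz s.A z) D → ¬ H1Z D) {φ : s'.P → s'.P → ℤ}
    (hφ : ∀ x y, φ x y = 1 → π x ∉ V ∧ π y ∈ V) {W : Set (Ch s'.P)}
    (hW : Ng s'.sd.A (rev φ) W) : False := by
  have eI : Inn s'.sd.A = Ch.top ⁻¹' Inn s'.A := inn_desc (Desc.sd s')
  have om : ∀ n : Ch s'.P, n ∈ Om (Inn s'.sd.A) ↔ n.top ∈ Om (Inn s'.A) := fun n => by
    rw [eI]; exact om_sd
  have same : ∀ n ∈ W, ∀ n' : Ch s'.P, n'.top ∈ Om (Inn s'.A) → Cm n n' →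
      (π n.bot ∈ V ↔ π n'.bot ∈ V) → n' ∈ W := fun n hn n' h1 l e => by_contra fun k => by
    have := hW.out n hn n' ((om _).2 h1) k
    rcases l with l | l
    · exact (hφ _ _ (this.1 l)).1 (e.1 (hφ _ _ (this.1 l)).2)
    · exact (hφ _ _ (this.2 l)).1 (e.2 (hφ _ _ (this.2 l)).2)
  by_cases c1 : ∀ n ∈ W, π n.bot ∈ V
  · obtain ⟨n0, hn0, y, hy, hy', l⟩ := hW.ne
    have g := good_inn (stt_sd h.st').toGood (stt_sd h.st').thick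
    obtain ⟨i, hi, l1, l2⟩ : ∃ i ∈ Inn s'.sd.A, n0 ≤ i ∧ y ≤ i := by
      rcases l with l | l
      · obtain ⟨-, i, hi, k⟩ := hy
        exact ⟨i, hi, l.trans k, k⟩
      · obtain ⟨-, i, hi, k⟩ := hW.sub hn0
        exact ⟨i, hi, k, l.trans k⟩
    have cm : ∀ x ∈ (Ch.pr y i l2).1, Cm n0 x := fun x hx => by
      rcases mem_insert.1 hx with rfl | hx
      exacts [l, Or.inl (mem_singleton.1 hx ▸ l1)]
    have c2 : Ctr W := (ws_sr inn_up g.nice hW.sub).ctr_iff.1 (ctr_bd inn_up g.mf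
      (fun c ⟨k, a, ha, k'⟩ => ⟨fun j => (hW.sub k').1 (inn_up (Ch.bot_le ha) j), k⟩) hW.conn
      hW.eu.ge (c := (Ch.pr y i l2).ins n0 cm) ⟨inn_up (Ch.le_top (Ch.le_ins _ _ _
        (mem_insert_of_mem (mem_singleton_self i)))) hi, n0, mem_insert_self _ _, hn0⟩
      (pr_bd l2 hy.1 hi) (fun ⟨_, a, ha, k⟩ => by
        rcases mem_insert.1 ha with rfl | ha
        exacts [hy' k, (hW.sub k).1 (mem_singleton.1 ha ▸ hi)]) (Or.inr (Ch.le_ins _ _ _)))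
    have a1 : ∀ n ∈ W, ∀ q ∈ n.1, q ∈ Om (Inn s'.A) ∧ π q ∈ V \ Uz s.A z := fun n hn q hq =>
      have k := om_dn inn_up ((om n).1 (hW.sub hn)) (Ch.le_top hq)
      ⟨k, hV (h.cov.mon (Ch.bot_le hq)) (c1 n hn),
        fun j => let ⟨k, _, hb, l⟩ := k; k (h.memB hb l j)⟩
    have a2 : ∀ n ∈ W, ∀ q ∈ n.1, (q ∈ s'.A ↔ n.top ∈ s'.A) := fun n hn q hq =>
      h.side_eq (Ch.le_top hq) (hs (a1 n hn q hq).2.1) (a1 n hn _ n.top_mem).1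
        ⟨hs (a1 n hn _ n.top_mem).2.1, (a1 n hn _ n.top_mem).2.2⟩
    let T : Set s'.P := {q | q ∈ Ts s z π (n0.top ∈ s'.A) ∧ π q ∈ V}
    have w : WS (In T Set.univ) (V \ Uz s.A z) (π ∘ Ch.top) := (Kh11.ws_top T).comp
      (WS.of_iso (fun q hq => ⟨hq.2, hq.1.2.1.2⟩) (fun k hk =>
        let ⟨q, hq, e⟩ := h.ts_surj ⟨hs hk.1, hk.2⟩ _; ⟨q, ⟨hq, e ▸ hk.1⟩, e⟩)
        fun q hq r hr => ⟨h.ts_le hq.1 hr.1, fun l => h.cov.mon l⟩)
    have c3 : IsCmp (In T Set.univ) W := isCmp_of (fun n hn => ⟨fun q hq => ⟨⟨(a1 n hn q hq).1,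
      ⟨hs (a1 n hn q hq).2.1, (a1 n hn q hq).2.2⟩, (a2 n hn q hq).trans
        ((c2.conn n hn n0 hn0).eq (g := fun n : Ch s'.P => n.top ∈ s'.A) fun a _ b hb l =>
          propext (a2 b hb _ (l a.top_mem))).to_iff⟩, (a1 n hn q hq).2.1⟩, trivial⟩) c2.ne c2.conn
      fun n hn n' hn' l => same n hn n' (hn'.1 _ n'.top_mem).1.1 l
        (iff_of_true (c1 n hn) (hn'.1 _ n'.bot_mem).2)
    obtain ⟨D, hD, e⟩ := w.isCmp_ex c3
    exact bad D hD (((w.restr (Kh11.clo_cmp hD)).ctr_iff.1 (e ▸ c2)).ex ℤ)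
  push Not at c1
  obtain ⟨n, hn, hv⟩ := c1
  have k0 := om_dn inn_up ((om n).1 (hW.sub hn)) n.bot_le_top
  obtain ⟨q', h1, y, b, h2, h3, l, h4⟩ := h.walk hs ho k0 hv
  have st : ∀ x y (l : x ≤ y), y ∈ Om (Inn s'.A) → π y ∉ V →
      (Ch.pt x ∈ W ↔ Ch.pr x y l ∈ W) ∧ (Ch.pt y ∈ W ↔ Ch.pr x y l ∈ W) := fun x y l k k' => by
    have kx : π x ∉ V := fun j => k' (hV (h.cov.mon l) j)
    have l1 : Ch.pt x ≤ Ch.pr x y l := Ch.pt_le.2 (by simp)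
    have l2 : Ch.pt y ≤ Ch.pr x y l := Ch.pt_le.2 (by simp)
    exact ⟨⟨fun j => same _ j _ (by simpa) (Or.inl l1) (by simp),
      fun j => same _ j _ (by simpa using om_dn inn_up k l) (Or.inr l1) (by simp)⟩,
      fun j => same _ j _ (by simpa) (Or.inl l2) (by simp [kx, k']),
      fun j => same _ j _ (by simpa) (Or.inr l2) (by simp [kx, k'])⟩
  have h5 : Ch.pt q' ∈ W := h1.ind (p := fun q => Ch.pt q ∈ W)
    (same n hn _ (by simpa) (Or.inr (Ch.pt_le.2 n.bot_mem)) (by simp))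
    fun a _ b hb l => (st a b l hb.1 hb.2).1.trans (st a b l hb.1 hb.2).2.symm
  have h6 := h1.mem ⟨k0, hv⟩
  have h7 : Ch.pt y ∈ W := by
    rcases h4 with rfl | rfl
    exacts [h5, (st y _ l h6.1 h6.2).1.2 ((st y _ l h6.1 h6.2).2.1 h5)]
  rcases hW.side with k | k
  · exact h2 (by simpa [mem_sd] using k _ h7 _ (hW.sub h7) Cm.rfl)
  · exact k _ h7 _ (hW.sub h7) Cm.rfl (Ch.pr y b l)
      (mem_fr_sd.2 (by rwa [Ch.top_pr])) (Ch.pt_le.2 (by simp))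

end Fx

end Crest.Agent.X212.Mc37
end
end

-- ▼ part X212/Mc37/Main

/-!
# X212 / Mc37 (helper37): (M), the pieces of the cutting surface in the balls are discs
-/

set_option autoImplicit false
set_option linter.unusedSectionVars false

open Finset Classical

noncomputable section

namespace Crest.Agent.X212.Mc37

open Crest.Agent.X212.Hp13 Alg36 Cut21 Ind26 Pt30
open Sf30 hiding Inn
open Sup43 (Inn inn_up inn_sub good_inn inn_desc)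
open Kh11 (WS In)

variable {s s' : St} {z : s.P → s.P → ℤ} {π : s'.P → s.P} {V : Set s.P} {Δ : Set (Ch s.P)}

/-- the test disc -/
def ph (π : s'.P → s.P) (V : Set s.P) (Δ : Set (Ch s.P)) (x y : s'.P) : ℤ :=
  if π y ∈ V ∧ ∃ b ∈ Inn s'.A, y ≤ b ∧ Rl Δ (π x) (π b) then 1 else 0

namespace Fx
variable (h : Fx s s' z π) (hV : IsUpperSet V) (hΔ : IsCmp (Hs V (Uz s.A z)) Δ)
include h hV hΔ

theorem ph_eq {x y b : s'.P} (l : x ≤ y) (l' : y ≤ b) (hb : b ∈ Inn s'.A) :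
    ph π V Δ x y = if π y ∈ V ∧ Rl Δ (π x) (π b) then 1 else 0 :=
  if_congr (and_congr_right fun hy => ⟨fun ⟨b', h1, h2, h3⟩ =>
    (conn_ge inn_up h.nice' y b' ⟨h1, h2⟩ b ⟨hb, l'⟩).ind (p := fun t => Rl Δ (π x) (π t)) h3
      fun _ k _ _ m => rl_r hΔ hV h.upU (h.mon (l.trans k.2)) (h.mon m) (hV (h.mon k.2) hy)
        (h.piB k.1), fun k => ⟨b, hb, l', k⟩⟩) rfl rfl

theorem ph_pos {x y b : s'.P} (l : x ≤ y) (l' : y ≤ b) (hb : b ∈ Inn s'.A) :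
    0 < ph π V Δ x y ↔ π y ∈ V ∧ Rl Δ (π x) (π b) := by
  rw [h.ph_eq hV hΔ l l' hb]; split_ifs with k <;> simp [k]

theorem ph_z1 : Z1 (Inn s'.A) (ph π V Δ) := by
  refine ⟨fun a ha x y w l l' _ _ k => ?_, fun x y _ => ?_, fun x y _ => ?_⟩
  rotate_left
  · unfold ph; split_ifs <;> simp
  · unfold ph; split_ifs <;> simp
  obtain ⟨b, hb, m⟩ : ∃ b ∈ Inn s'.A, w ≤ b :=
    k.elim (fun j => ⟨w, inn_up j ha, le_rfl⟩) fun j => ⟨a, ha, j⟩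
  rw [h.ph_eq hV hΔ (l.trans l') m hb, h.ph_eq hV hΔ l (l'.trans m) hb, h.ph_eq hV hΔ l' m hb]
  by_cases hy : π y ∈ V
  · have : ¬ Rl Δ (π y) (π b) := fun j => (j.mem hΔ).1 hy
    simp [hy, hV (h.mon l') hy, this]
  by_cases hw : π w ∈ V
  · simp [hy, hw, rl_l hΔ hV (h.mon l) (h.mon (l'.trans m)) hy (hV (h.mon m) hw) (h.piB hb)]
  · simp [hy, hw]

theorem ph_ws : WS (Mx (Inn s'.A) (ph π V Δ)) {c | Rl Δ c.bot c.top} h.cov.toLift.im := by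
  convert h.ws_im (F := {c | Rl Δ c.bot c.top}) fun _ k => (Rl.mem hΔ k).2.2 using 1
  refine Set.ext fun c => and_congr_right fun k => ?_
  rw [h.ph_pos hV hΔ c.bot_le_top le_rfl k, Set.mem_ofPred_eq, h.cov.toLift.top_im,
    h.cov.toLift.bot_im]
  exact and_iff_right_of_imp fun j => (j.mem hΔ).2.1

/-- an innermost disc gives a contradiction -/
theorem test (rv : RvStmt) (np : NegPStmt) (hs : V ⊆ Inn s.A)
    (ho : Out (Inn s.A) ((Inn s.A \ Uz s.A z) \ V))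
    (bad : ∀ D, IsCmp (V \ Uz s.A z) D → ¬ H1Z D) (he : eu Δ = 1) {p : Prop}
    (hp : ∀ c ∈ Δ, ∀ d, c ≤ d → ∀ k ∈ d.1, k ∈ V \ Uz s.A z → (z k c.top = 0 ↔ p))
    (ht : ∃ c ∈ Δ, ∃ d, c ≤ d ∧ Mt (V \ Uz s.A z) d) : False := by
  obtain ⟨z1, vt, w⟩ := rv s' _ h.st' (h.ph_z1 hV hΔ)
  have w1 := w.comp (h.ph_ws hV hΔ)
  have w2 := ws_bar hΔ hV
  have eI : ∀ n : Ch s'.P, n ∈ Inn s'.sd.A ↔ n.top ∈ Inn s'.A := fun _ => mem_inn_sd
  set F := Mx (Inn s'.sd.A) (rev (ph π V Δ))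
  have tc : Tc (Inn s'.sd.A) (rev (ph π V Δ)) F := by
    obtain ⟨c, hc, d, l, k, a1, hk⟩ := ht
    have c1 := hΔ.sub hc
    have l1 : c.bot ≤ k := (d.cm (l c.bot_mem) a1).resolve_right fun j => c1.1.1 (hV j hk.1)
    have l2 : k ≤ c.top :=
      (d.cm a1 (l c.top_mem)).resolve_right fun j => hk.2 (h.upU j (Hs.top c1))
    obtain ⟨b, hb, e⟩ := h.exB (Hs.top c1)
    obtain ⟨q, hq, rfl⟩ := h.exD hb (e ▸ l2)
    obtain ⟨x, hx, e'⟩ := h.exD hb (e ▸ c.bot_le_top)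
    have l3 : x ≤ q := h.le_dn hb.1 hx hq (e' ▸ l1)
    have f : 0 < ph π V Δ x q := (h.ph_pos hV hΔ l3 hq hb).2 ⟨hk.1, c, hc, e'.symm, e.symm⟩
    have m1 : Ch.pt q ≤ Ch.pr x q l3 := Ch.pt_le.2 (by simp)
    have m2 : Ch.pr x q l3 ≤ Ch.tr x q b l3 hq :=
      Ch.pr_le _ (Ch.mem_tr.2 (by simp)) (Ch.mem_tr.2 (by simp))
    refine ⟨Ch.tr _ _ _ m1 m2, ⟨(eI _).2 (by rwa [Ch.top_tr, Ch.top_tr]), ?_⟩, _,
      Ch.mem_tr.2 (Or.inl rfl), _, Ch.mem_tr.2 (Or.inr (Or.inl rfl)), m1,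
      fun j => hk.2 (h.piB (by simpa using (eI _).1 j)), by simpa [rev] using f⟩
    rw [Ch.top_tr, Ch.bot_tr]
    simpa [rev, Ch.bot_tr] using f
  have cF : IsCmp F F := isCmp_of subset_rfl (let ⟨c, hc, _⟩ := tc; ⟨c, hc⟩)
    (w1.conn_iff.2 (w2.conn_iff.1 hΔ.conn)) fun _ _ _ k _ => k
  have eF : eu F = 1 := by rw [w1.eu_eq, ← w2.eu_eq, he]
  have sd : ∀ C ∈ F, ∀ d ∈ C.1, d.top ∈ Inn s'.A ∨ (d.top ∈ s'.A ↔ p) := fun C hC d hd => by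
    have hb := (eI _).1 hC.1
    have m : C.bot.bot ∈ d.1 := Ch.bot_le hd C.bot.bot_mem
    have l := Ch.top_mono (Ch.le_top hd)
    have l0 := Ch.bot_anti C.bot_le_top
    obtain ⟨h1, c, hc, e1, e2⟩ := (h.ph_pos hV hΔ l0 ((Ch.le_top m).trans l) hb).1 hC.2
    have hv := hV (h.mon (Ch.le_top m)) h1
    refine (Classical.em _).imp id fun k => ?_
    have hu : π d.top ∉ Uz s.A z := fun j => k (h.memB hb l j)
    have l1 := h.mon (l0.trans (Ch.le_top m))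
    have l2 := h.mon l
    have c1 := hΔ.sub hc
    have := hp _ (hΔ.clopen hc (pr_hs (l1.trans l2) (e1 ▸ c1.1.1) (e2 ▸ c1.1.2) (h.piB hb))
      (Or.inr (Ch.pr_le _ (e1 ▸ c.bot_mem) (e2 ▸ c.top_mem)))) (Ch.tr _ _ _ l1 l2)
      (Ch.pr_le _ (Ch.mem_tr.2 (by simp)) (Ch.mem_tr.2 (by simp))) _ (Ch.mem_tr.2 (by simp))
      ⟨hv, hu⟩
    rw [Ch.top_pr] at this
    exact (h.side hb l (hs hv)).trans this
  obtain ⟨W, hW⟩ : ∃ W, Ng s'.sd.A (rev (ph π V Δ)) W := by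
    by_cases k : p
    · exact np _ _ F (stt_sd h.st') z1 vt cF eF tc fun C hC =>
        (sd C hC _ C.bot_mem).elim (fun j => j.1) fun j => j.2 k
    · exact negMStmt _ _ F (stt_sd h.st') z1 vt cF eF tc fun C hC d hd m =>
        have m' := mem_fr_sd.1 m
        (sd C hC d hd).elim (fun j => j.2 m') fun j => k (j.1 m'.1)
  exact h.no_ng hV hs ho bad (fun x y k => by
    unfold ph at k
    split_ifs at k with j
    · exact let ⟨j1, _, _, _, j2⟩ := j; ⟨(j2.mem hΔ).1, j1⟩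
    · simp at k) hW

end Fx

theorem fx_of (h : Pk s s' z π) : Fx s s' z π where
  toPk := h
  f1 _ hb := h.mem_inn.trans (and_iff_right hb)
  f4 _ hk := ⟨h.ctr_lz (h.lz0_ne (Pk.kz_of hk).1), h.ctr_lz (h.lz1_kz (Pk.kz_of hk))⟩
  f6 _ hq hn := let ⟨r, a, y, b, c, d, e⟩ := h.walk hq hn; ⟨r, a, y, c, b, d, e⟩
  f7 := h.out

theorem rv : RvStmt := fun s e hs he => by
  rw [show Inn s.sd.A = Ch.top ⁻¹' Inn s.A from inn_sd]
  exact ⟨he.rev, vt_rev (good_inn hs.toGood hs.thick).nice he.coc, ws_rev he subset_rfl⟩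

/-- **(M)** -/
theorem mc (np : NegPStmt) : McStmt := by
  intro s s' z π Z h0 hZ h1 o1 o2
  have h := fx_of h0
  set M := Inn s.A
  set U := Uz s.A z
  set T := (M \ U) \ Z
  have uM : IsUpperSet M := inn_up
  have lo : ∀ y ∈ Gd T, ∀ x ∈ M \ Z, x ≤ y → x ∈ Gd T := fun y hy x hx l =>
    gd_clo hy ⟨⟨hx.1, fun j => hy.1.1.2 (h.upU l j)⟩, hx.2⟩ (Or.inr l)
  have inU : ∀ y ∈ Gd T, ∀ v ∈ (M \ Z) \ Gd T, y ≤ v → v ∈ U := fun y hy v hv l =>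
    by_contra fun j => hv.2 (gd_clo hy ⟨⟨hv.1.1, j⟩, hv.1.2⟩ (Or.inl l))
  have ofU : ∀ u ∈ U \ Z, u ∈ (M \ Z) \ Gd T := fun u hu =>
    ⟨⟨hu.1.1, hu.2⟩, fun j => j.1.1.2 hu.1⟩
  have h2 : H1Z ((M \ Z) \ Gd T) := fun w hw => by
    obtain ⟨w', a, b⟩ := Mcg32.extd s.P (M \ Z) (Gd T) (fun y v => 0 < z y v)
      (fun _ k => ⟨k.1.1.1, k.1.2⟩) lo
      (fun y hy y' _ v hv l l' => by rw [h.add hv.1.1.1 l l', h.zK hy.1.1 l, zero_add])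
      (fun y hy v hv v' hv' l l' => by
        rw [h.add hv'.1.1.1 l l', h.zU (inU y hy v hv l) l', add_zero])
      (fun y hy => by
        have := h.f4 y hy.1.1
        have m : ∀ u ∈ U, y ≤ u → u ∈ (M \ Z) \ Gd T := fun u hu l =>
          ofU u ⟨hu, fun j => hy.1.2 (hZ l j)⟩
        constructor
        · convert this.2 using 1
          refine Set.ext fun v => ⟨fun k => ⟨inU y hy v k.1 k.2.1, k.2.1, ?_⟩,
            fun k => ⟨m v k.1 k.2.1, k.2.1, by rw [k.2.2]; exact one_pos⟩⟩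
          have := h0.le1 k.1.1.1.1 k.2.1 le_rfl
          have := k.2.2
          omega
        · convert this.1 using 1
          refine Set.ext fun v => ⟨fun k => ⟨inU y hy v k.1 k.2.1, k.2.1, ?_⟩,
            fun k => ⟨m v k.1 k.2.1, k.2.1, by rw [k.2.2]; exact lt_irrefl _⟩⟩
          have := h0.nn k.1.1.1.1 k.2.1 le_rfl
          have := k.2.2
          omega) (h1z_gd T) w hw
    obtain ⟨g, hg⟩ := h1 w' a
    exact ⟨g, fun x hx y hy l => (b x hx y hy l).symm.trans (hg x hx.1 y hy.1 l)⟩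
  by_cases c : T ⊆ Gd T
  · rwa [show U \ Z = (M \ Z) \ Gd T from Set.ext fun v => ⟨ofU v, fun k =>
      ⟨by_contra fun j => k.2 (c ⟨⟨k.1.1, j⟩, k.1.2⟩), k.1.2⟩⟩]
  exfalso
  obtain ⟨k, k1, k2⟩ := Set.not_subset.1 c
  have hC := isCmp_cmp (E := (M \ Z) \ Gd T) ⟨⟨k1.1.1, k1.2⟩, k2⟩
  have k3 : k ∈ cmp ((M \ Z) \ Gd T) k := mem_cmp_self ⟨⟨k1.1.1, k1.2⟩, k2⟩
  set V := cmp ((M \ Z) \ Gd T) k
  have hV : IsUpperSet V := hC.upper fun x y l hx =>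
    ⟨⟨uM l hx.1.1, fun j => hx.1.2 (hZ l j)⟩, fun j => hx.2 (lo y j x hx.1 l)⟩
  have hs : V ⊆ M := fun _ j => (hC.sub j).1.1
  have hT : V \ U ⊆ T := fun _ j => ⟨⟨hs j.1, j.2⟩, (hC.sub j.1).1.2⟩
  have cl : ∀ x ∈ V \ U, ∀ y ∈ T, Cm x y → y ∈ V \ U := fun x hx y hy l =>
    ⟨hC.clopen hx.1 ⟨⟨hy.1.1, hy.2⟩, fun j => (hC.sub hx.1).2 (gd_clo j (hT hx) l.symm)⟩ l, hy.1.2⟩
  have he : 1 ≤ eu V := by_contra fun j =>
    let ⟨w, a, b, _⟩ := Mf.exists_cocOn h.st.mf (hs.trans inn_sub) hC.ne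
      (h.st.esc.mono (hs.trans inn_sub)) (by omega)
    b (h1z_cmp hC h2 w a)
  have ho : Out M ((M \ U) \ V) := fun n hn => by
    obtain ⟨n', r, o⟩ := h.f7 n hn.1
    have := Ind26.rch_ind r (p := fun t => Rch ((M \ U) \ V) n t ∨
      ∃ n', Rch ((M \ U) \ V) n n' ∧ ∃ x, x ∉ M ∧ x ≤ n') (Or.inl Rch.rfl)
      fun a ha b hb l j => j.elim (fun j => ?_) Or.inr
    · exact this.elim (fun j => ⟨n', j, o⟩) id
    by_cases m : a ∈ Z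
    · obtain ⟨t, r', o'⟩ := o2 a ⟨ha, m⟩
      exact Or.inr ⟨t, j.trans (r'.mono fun _ k => ⟨k.1, fun i => (hC.sub i).1.2 k.2⟩), o'⟩
    · exact Or.inl (j.trans (Rch.of_cm (j.mem hn)
        ⟨hb, fun i => (j.mem hn).2 (cl b ⟨i, hb.2⟩ a ⟨ha, m⟩ l.symm).1⟩ l))
  have hc : Conn (Bd V) := conn_bd hV hs h0.good.bnd hC.conn fun x hx v hv l => by
    by_cases m : x ∈ Z
    · obtain ⟨t, r, o⟩ := o1 x ⟨hx.1, m⟩
      exact ⟨t, r.mono fun _ k => ⟨k.1, fun i => (hC.sub i).1.2 k.2⟩, o⟩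
    · have : x ∈ Gd T := by_contra fun j => hx.2 (hC.clopen hv ⟨⟨hx.1, m⟩, j⟩ (Or.inr l))
      obtain ⟨t, r, o⟩ := ho x ⟨this.1.1, hx.2⟩
      exact ⟨t, r.mono fun _ k => ⟨k.1.1, k.2⟩, o⟩
  obtain ⟨x0, a1, k0, a2, a3⟩ : ∃ x0, x0 ∉ V ∧ ∃ k0 ∈ V \ U, x0 ≤ k0 := by_contra fun j => by
    obtain ⟨n, r, o, o3, o4⟩ := h.f7 k k1.1
    exact j ⟨o, fun i => o3 (hs i), n, ⟨r.ind (p := (· ∈ V)) k3 fun a _ b hb l =>
      ⟨hV l, fun i => by_contra fun i' => j ⟨a, i', b, ⟨i, hb.2⟩, l⟩⟩, (r.mem k1.1).2⟩, o4⟩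
  have two : Two V U fun k u => z k u = 0 := ⟨hV, h.upU,
    fun k _ k' hk' u hu l l' => by rw [h.add hu.1.1 l l', h.zK ⟨hs hk'.1, hk'.2⟩ l, zero_add],
    fun k _ u hu u' l l' => by rw [h.add (h.upU l' hu).1.1 l l', h.zU hu l', add_zero],
    fun k hk => h.ex_side ⟨hs hk.1, hk.2⟩⟩
  obtain ⟨Δ, hΔ, e, ⟨p, hp⟩, ht⟩ := two.disc (h0.mf.mono hs) hc he a1 a2 a3
  refine h.test hV hΔ rv np hs ho (fun D ⟨t, b1, b2⟩ b3 => (hC.sub b1.1).2 ⟨hT b1, ?_⟩) e hp ht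
  rwa [show cmp T t = D from b2 ▸ Set.ext fun y => ⟨fun j =>
    have := Rch.in_clopen cl b1 j.2; ⟨this.mem b1, this⟩, fun j => ⟨hT j.1, j.2.mono hT⟩⟩]

end Crest.Agent.X212.Mc37
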