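import Crest.Agent.X212.Mc37.Main
import Crest.Agent.X212.Inn1.Main
import Crest.Agent.X212.Sm10.P2a
import Crest.Agent.X212.Sm10.P2Fin
import Crest.Agent.X212.Mcg32.Extd
import Crest.Agent.X212.Mcg32.P2Good
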